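import Mathlib

set_option autoImplicit false
set_option linter.unusedSectionVars false
set_option linter.unusedVariables false

/-!
Finite product spaces: resampling, conditional expectations, pure components.
-/

namespace Vale.Agent.P042.H455

open Finset

section basics

variable {ι : Type*} [Fintype ι] [DecidableEq ι] {X : ι → Type*} [∀ i, Fintype (X i)]

/-- product weight -/
def pw (μ : ∀ i, X i → ℝ) (x : ∀ i, X i) : ℝ := ∏ i, μ i (x i)

/-- expectation -/
def EX (μ : ∀ i, X i → ℝ) (f : (∀ i, X i) → ℝ) : ℝ := ∑ x, pw μ x * f x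

/-- conditional expectation given the coordinates of `S` -/
def PS (μ : ∀ i, X i → ℝ) (S : Finset ι) (f : (∀ i, X i) → ℝ) (x : ∀ i, X i) : ℝ :=
  ∑ y, pw μ y * f (S.piecewise x y)

/-- pure component of `f` on the set `W` of coordinates (Efron-Stein) -/
def comp (μ : ∀ i, X i → ℝ) (W : Finset ι) (f : (∀ i, X i) → ℝ) (x : ∀ i, X i) : ℝ :=
  ∑ S ∈ W.powerset, (-1 : ℝ) ^ (W \ S).card * PS μ S f x

/-- energy of the component -/
def en (μ : ∀ i, X i → ℝ) (W : Finset ι) (f : (∀ i, X i) → ℝ) : ℝ :=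
  EX μ (fun x => (comp μ W f x) ^ 2)

variable {μ : ∀ i, X i → ℝ}

/-- the hypothesis on the weights -/
structure PM (μ : ∀ i, X i → ℝ) : Prop where
  nn : ∀ i x, 0 ≤ μ i x
  one : ∀ i, ∑ x, μ i x = 1

lemma PM.pw_nonneg (h : PM μ) (x : ∀ i, X i) : 0 ≤ pw μ x :=
  prod_nonneg fun i _ => h.nn i _

lemma PM.pw_sum (h : PM μ) : ∑ x, pw μ x = 1 := by
  classical
  unfold pw
  rw [← Fintype.piFinset_univ, ← Finset.prod_univ_sum]
  simp [h.one]

lemma EX_add (f g : (∀ i, X i) → ℝ) : EX μ (fun x => f x + g x) = EX μ f + EX μ g := by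
  simp [EX, mul_add, sum_add_distrib]

lemma EX_sub (f g : (∀ i, X i) → ℝ) : EX μ (fun x => f x - g x) = EX μ f - EX μ g := by
  simp [EX, mul_sub, sum_sub_distrib]

lemma EX_smul (c : ℝ) (f : (∀ i, X i) → ℝ) : EX μ (fun x => c * f x) = c * EX μ f := by
  unfold EX
  rw [mul_sum]
  exact sum_congr rfl fun x _ => by ring

lemma EX_sum {α : Type*} (s : Finset α) (f : α → (∀ i, X i) → ℝ) :
    EX μ (fun x => ∑ a ∈ s, f a x) = ∑ a ∈ s, EX μ (f a) := by
  unfold EX
  rw [sum_comm]
  exact sum_congr rfl fun x _ => by rw [mul_sum]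

lemma PM.EX_const (h : PM μ) (c : ℝ) : EX μ (fun _ => c) = c := by
  unfold EX
  rw [← sum_mul, h.pw_sum, one_mul]

lemma PM.EX_nonneg (h : PM μ) {f : (∀ i, X i) → ℝ} (hf : ∀ x, 0 ≤ f x) : 0 ≤ EX μ f :=
  sum_nonneg fun x _ => mul_nonneg (h.pw_nonneg x) (hf x)

lemma PM.EX_mono (h : PM μ) {f g : (∀ i, X i) → ℝ} (hf : ∀ x, f x ≤ g x) : EX μ f ≤ EX μ g :=
  sum_le_sum fun x _ => mul_le_mul_of_nonneg_left (hf x) (h.pw_nonneg x)

lemma PM.en_nonneg (h : PM μ) (W : Finset ι) (f : (∀ i, X i) → ℝ) : 0 ≤ en μ W f :=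
  h.EX_nonneg fun x => sq_nonneg _

/-- Cauchy-Schwarz -/
lemma PM.cs (h : PM μ) (f g : (∀ i, X i) → ℝ) :
    |EX μ (fun x => f x * g x)| ≤
      Real.sqrt (EX μ (fun x => f x ^ 2)) * Real.sqrt (EX μ (fun x => g x ^ 2)) := by
  rw [← Real.sqrt_mul (h.EX_nonneg fun x => sq_nonneg _)]
  apply Real.abs_le_sqrt
  have := Finset.sum_mul_sq_le_sq_mul_sq (univ : Finset (∀ i, X i))
    (fun x => Real.sqrt (pw μ x) * f x) (fun x => Real.sqrt (pw μ x) * g x)
  have e1 : ∀ x, Real.sqrt (pw μ x) * f x * (Real.sqrt (pw μ x) * g x) = pw μ x * (f x * g x) := by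
    intro x
    have := Real.mul_self_sqrt (h.pw_nonneg x)
    calc _ = (Real.sqrt (pw μ x) * Real.sqrt (pw μ x)) * (f x * g x) := by ring
      _ = _ := by rw [this]
  have e2 : ∀ (f : (∀ i, X i) → ℝ) x, (Real.sqrt (pw μ x) * f x) ^ 2 = pw μ x * f x ^ 2 := by
    intro f x
    rw [mul_pow, Real.sq_sqrt (h.pw_nonneg x)]
  simpa [EX, e1, e2] using this

/-- resampling one coordinate -/
lemma PM.resample (h : PM μ) (i : ι) (f : (∀ i, X i) → ℝ) :
    EX μ f = EX μ (fun x => ∑ t, μ i t * f (Function.update x i t)) := by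
  classical
  unfold EX
  -- both sides are the sum over (x, t)
  have key : ∑ x : (∀ i, X i), pw μ x * ∑ t, μ i t * f (Function.update x i t)
      = ∑ p : (∀ i, X i) × X i, pw μ p.1 * (μ i p.2 * f (Function.update p.1 i p.2)) := by
    rw [← univ_product_univ, sum_product]
    exact sum_congr rfl fun x _ => by rw [mul_sum]
  have key2 : ∑ x : (∀ i, X i), pw μ x * f x
      = ∑ p : (∀ i, X i) × X i, pw μ p.1 * f p.1 * μ i p.2 := by
    rw [← univ_product_univ, sum_product]
    refine sum_congr rfl fun x _ => ?_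
    simp only
    rw [← mul_sum, h.one, mul_one]
  rw [key, key2]
  -- involution (x, t) ↦ (update x i t, x i)
  refine sum_bij' (fun p _ => (Function.update p.1 i p.2, p.1 i))
    (fun p _ => (Function.update p.1 i p.2, p.1 i)) (by simp) (by simp) ?_ ?_ ?_
  · rintro ⟨x, t⟩ _
    simp
  · rintro ⟨x, t⟩ _
    simp
  · rintro ⟨x, t⟩ _
    simp only [Function.update_idem, Function.update_eq_self]
    have : pw μ x * μ i t = pw μ (Function.update x i t) * μ i (x i) := by
      unfold pw
      rw [← mul_prod_erase univ _ (mem_univ i), ← mul_prod_erase univ _ (mem_univ i)]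
      have : ∏ j ∈ univ.erase i, μ j (Function.update x i t j) = ∏ j ∈ univ.erase i, μ j (x j) := by
        refine prod_congr rfl fun j hj => ?_
        rw [Function.update_of_ne (ne_of_mem_erase hj)]
      rw [this]
      simp
      ring
    calc pw μ x * f x * μ i t = (pw μ x * μ i t) * f x := by ring
      _ = _ := by rw [this]; ring

/-- the swap of the coordinates outside `S` -/
lemma pw_swap (S : Finset ι) (x y : ∀ i, X i) :
    pw μ (S.piecewise x y) * pw μ (S.piecewise y x) = pw μ x * pw μ y := by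
  unfold pw
  rw [← prod_mul_distrib, ← prod_mul_distrib]
  refine prod_congr rfl fun i _ => ?_
  by_cases hi : i ∈ S
  · simp [hi]
  · simp [hi, mul_comm]

/-- `PS` is self-adjoint -/
lemma PS_adj (S : Finset ι) (f g : (∀ i, X i) → ℝ) :
    EX μ (fun x => PS μ S f x * g x) = EX μ (fun x => f x * PS μ S g x) := by
  unfold EX PS
  have e1 : ∑ x : (∀ i, X i), pw μ x * ((∑ y, pw μ y * f (S.piecewise x y)) * g x)
      = ∑ p : (∀ i, X i) × (∀ i, X i), pw μ p.1 * pw μ p.2 * f (S.piecewise p.1 p.2) * g p.1 := by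
    rw [← univ_product_univ, sum_product]
    refine sum_congr rfl fun x _ => ?_
    rw [sum_mul, mul_sum]
    exact sum_congr rfl fun y _ => by ring
  have e2 : ∑ x : (∀ i, X i), pw μ x * (f x * ∑ y, pw μ y * g (S.piecewise x y))
      = ∑ p : (∀ i, X i) × (∀ i, X i), pw μ p.1 * pw μ p.2 * f p.1 * g (S.piecewise p.1 p.2) := by
    rw [← univ_product_univ, sum_product]
    refine sum_congr rfl fun x _ => ?_
    rw [mul_sum, mul_sum]
    exact sum_congr rfl fun y _ => by ring
  rw [e1, e2]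
  refine sum_bij' (fun p _ => (S.piecewise p.1 p.2, S.piecewise p.2 p.1))
    (fun p _ => (S.piecewise p.1 p.2, S.piecewise p.2 p.1)) (by simp) (by simp) ?_ ?_ ?_
  · rintro ⟨x, y⟩ _
    ext i <;> by_cases hi : i ∈ S <;> simp [hi]
  · rintro ⟨x, y⟩ _
    ext i <;> by_cases hi : i ∈ S <;> simp [hi]
  · rintro ⟨x, y⟩ _
    simp only
    rw [pw_swap]
    have : S.piecewise (S.piecewise x y) (S.piecewise y x) = x := by
      ext i; by_cases hi : i ∈ S <;> simp [hi]
    rw [this]

/-- `h` depends only on the coordinates of `W` -/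
def DepOn (W : Finset ι) (h : (∀ i, X i) → ℝ) : Prop :=
  ∀ x y : ∀ i, X i, (∀ i ∈ W, x i = y i) → h x = h y

/-- `h` is centred in the coordinate `i` -/
def Cent (μ : ∀ i, X i → ℝ) (i : ι) (h : (∀ i, X i) → ℝ) : Prop :=
  ∀ x : ∀ i, X i, ∑ t, μ i t * h (Function.update x i t) = 0

lemma PM.PS_eq_self (hμ : PM μ) {W : Finset ι} {h : (∀ i, X i) → ℝ} (hd : DepOn W h)
    (x : ∀ i, X i) : PS μ W h x = h x := by
  unfold PS
  have : ∀ y, h (W.piecewise x y) = h x := fun y =>
    hd _ _ fun i hi => by simp [hi]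
  simp only [this]
  rw [← sum_mul, hμ.pw_sum, one_mul]

lemma PM.PS_eq_zero (hμ : PM μ) {S : Finset ι} {i : ι} (hi : i ∉ S) {h : (∀ i, X i) → ℝ}
    (hc : Cent μ i h) (x : ∀ i, X i) : PS μ S h x = 0 := by
  have h1 : PS μ S h x = EX μ (fun y => h (S.piecewise x y)) := rfl
  rw [h1, hμ.resample i]
  have : ∀ y, ∑ t, μ i t * h (S.piecewise x (Function.update y i t)) = 0 := by
    intro y
    have := hc (S.piecewise x y)
    rw [← this]
    refine sum_congr rfl fun t _ => ?_
    congr 2
    ext j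
    by_cases hj : j ∈ S
    · have : j ≠ i := fun e => hi (e ▸ hj)
      simp [hj, this]
    · by_cases hji : j = i
      · subst hji; simp [hj]
      · simp [hj, hji]
  simp only [this]
  simp [EX]

/-- a function of pure type `W` only sees the component `W` -/
lemma PM.comp_adj (hμ : PM μ) {W : Finset ι} {h : (∀ i, X i) → ℝ} (hd : DepOn W h)
    (hc : ∀ i ∈ W, Cent μ i h) (f : (∀ i, X i) → ℝ) :
    EX μ (fun x => f x * h x) = EX μ (fun x => comp μ W f x * h x) := by
  have h1 : EX μ (fun x => comp μ W f x * h x)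
      = ∑ S ∈ W.powerset, (-1 : ℝ) ^ (W \ S).card * EX μ (fun x => f x * PS μ S h x) := by
    have : (fun x => comp μ W f x * h x)
        = fun x => ∑ S ∈ W.powerset, ((-1 : ℝ) ^ (W \ S).card * (PS μ S f x * h x)) := by
      funext x
      unfold comp
      rw [sum_mul]
      exact sum_congr rfl fun S _ => by ring
    rw [this, EX_sum]
    refine sum_congr rfl fun S _ => ?_
    rw [EX_smul, PS_adj]
  rw [h1]
  rw [sum_eq_single W]
  · have : (fun x => f x * PS μ W h x) = fun x => f x * h x := by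
      funext x
      rw [hμ.PS_eq_self hd]
    rw [this]
    simp
  · intro S hS hne
    have hsub := mem_powerset.1 hS
    obtain ⟨i, hiW, hiS⟩ := exists_of_ssubset (hsub.ssubset_of_ne hne)
    have : (fun x => f x * PS μ S h x) = fun _ => 0 := by
      funext x
      rw [hμ.PS_eq_zero hiS (hc i hiW), mul_zero]
    rw [this]
    simp [EX]
  · intro hh
    exact absurd (mem_powerset.2 (Subset.refl W)) hh

lemma PM.pure_bound (hμ : PM μ) {W : Finset ι} {h : (∀ i, X i) → ℝ} (hd : DepOn W h)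
    (hc : ∀ i ∈ W, Cent μ i h) (f : (∀ i, X i) → ℝ) :
    |EX μ (fun x => f x * h x)| ≤ Real.sqrt (en μ W f) * Real.sqrt (EX μ (fun x => h x ^ 2)) := by
  rw [hμ.comp_adj hd hc]
  exact hμ.cs _ _

/-- independence: a product of one-coordinate factors splits off -/
lemma PM.indep (hμ : PM μ) (T : Finset ι) (a : ∀ i, X i → ℝ) (G : (∀ i, X i) → ℝ)
    (hG : ∀ i ∈ T, ∀ x t, G (Function.update x i t) = G x) :
    EX μ (fun x => (∏ i ∈ T, a i (x i)) * G x) = (∏ i ∈ T, ∑ t, μ i t * a i t) * EX μ G := by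
  induction T using Finset.induction_on with
  | empty => simp
  | insert i T hi ih =>
    rw [hμ.resample i]
    have h1 : ∀ x : ∀ i, X i, ∑ t, μ i t * ((∏ j ∈ insert i T, a j (Function.update x i t j)) *
        G (Function.update x i t)) =
        (∑ t, μ i t * a i t) * ((∏ j ∈ T, a j (x j)) * G x) := by
      intro x
      rw [sum_mul]
      refine sum_congr rfl fun t _ => ?_
      rw [hG i (mem_insert_self _ _), prod_insert hi]
      have : ∏ j ∈ T, a j (Function.update x i t j) = ∏ j ∈ T, a j (x j) :=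
        prod_congr rfl fun j hj => by
          have hji : j ≠ i := fun e => hi (e ▸ hj)
          rw [Function.update_of_ne hji]
      rw [this]
      simp
      ring
    simp only [h1]
    rw [EX_smul, ih (fun j hj => hG j (mem_insert_of_mem hj)), prod_insert hi]
    ring

end basics

end Vale.Agent.P042.H455
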