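import Vale.Agent.P042.H455.TiltA

set_option autoImplicit false
set_option linter.unusedSectionVars false
set_option linter.unusedVariables false

/-!
Product kernels on finite product spaces and the key bound.
-/

namespace Vale.Agent.P042.H455

open Finset

variable {ι : Type*} [Fintype ι] [DecidableEq ι] {X : ι → Type*} [∀ i, Fintype (X i)]
  {μ : ∀ i, X i → ℝ}

/-- the kernel operator in the coordinates of `S` (acting on the first variable of the kernel) -/
def ZS (μ : ∀ i, X i → ℝ) (z : ∀ i, X i → X i → ℝ) (S : Finset ι) (G : (∀ i, X i) → ℝ)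
    (y : ∀ i, X i) : ℝ :=
  EX μ (fun x => (∏ i ∈ S, z i (x i) (y i)) * G (S.piecewise x y))

lemma piecewise_insert_update {i : ι} {S : Finset ι} (hi : i ∉ S) (x y : ∀ i, X i) (t : X i) :
    (insert i S).piecewise (Function.update x i t) y = S.piecewise x (Function.update y i t) := by
  ext j
  by_cases hji : j = i
  · subst hji; simp [hi]
  · by_cases hj : j ∈ S
    · simp [hj, hji]
    · simp [hj, hji]

/-- `ZS` for `insert i S` is the composition -/
lemma PM.ZS_insert (hμ : PM μ) (z : ∀ i, X i → X i → ℝ) {i : ι} {S : Finset ι} (hi : i ∉ S)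
    (G : (∀ i, X i) → ℝ) (y : ∀ i, X i) :
    ZS μ z (insert i S) G y =
      ∑ t, μ i t * (z i t (y i) * ZS μ z S G (Function.update y i t)) := by
  unfold ZS
  rw [hμ.resample i]
  have h1 : ∀ x : ∀ i, X i, ∑ t, μ i t * ((∏ j ∈ insert i S, z j (Function.update x i t j) (y j)) *
      G ((insert i S).piecewise (Function.update x i t) y)) =
      ∑ t, (μ i t * z i t (y i)) * ((∏ j ∈ S, z j (x j) (Function.update y i t j)) *
        G (S.piecewise x (Function.update y i t))) := by
    intro x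
    refine sum_congr rfl fun t _ => ?_
    rw [piecewise_insert_update hi, prod_insert hi]
    have : ∏ j ∈ S, z j (Function.update x i t j) (y j)
        = ∏ j ∈ S, z j (x j) (Function.update y i t j) :=
      prod_congr rfl fun j hj => by
        have hji : j ≠ i := fun e => hi (e ▸ hj)
        rw [Function.update_of_ne hji, Function.update_of_ne hji]
    rw [this]
    simp
    ring
  simp only [h1]
  rw [EX_sum]
  refine sum_congr rfl fun t _ => ?_
  rw [EX_smul]
  ring

/-- norm bound for `ZS` -/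
lemma PM.ZS_norm (hμ : PM μ) (z : ∀ i, X i → X i → ℝ) (lam : ι → ℝ)
    (hz : ∀ i, ∀ v : X i → ℝ,
      ∑ s, μ i s * (∑ t, μ i t * (z i t s * v t)) ^ 2 ≤ lam i ^ 2 * ∑ t, μ i t * v t ^ 2)
    (S : Finset ι) (G : (∀ i, X i) → ℝ) :
    EX μ (fun y => ZS μ z S G y ^ 2) ≤ (∏ i ∈ S, lam i) ^ 2 * EX μ (fun y => G y ^ 2) := by
  induction S using Finset.induction_on with
  | empty =>
    have : ∀ y, ZS μ z ∅ G y = G y := by
      intro y
      unfold ZS
      simp only [prod_empty, one_mul, piecewise_empty]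
      exact hμ.EX_const _
    simp [this]
  | insert i S hi ih =>
    have h1 : EX μ (fun y => ZS μ z (insert i S) G y ^ 2)
        ≤ lam i ^ 2 * EX μ (fun y => ZS μ z S G y ^ 2) := by
      rw [hμ.resample i, hμ.resample i (fun y => ZS μ z S G y ^ 2), ← EX_smul]
      refine hμ.EX_mono fun y => ?_
      have h2 := hz i (fun t => ZS μ z S G (Function.update y i t))
      refine le_trans (le_of_eq ?_) h2
      refine sum_congr rfl fun s _ => ?_
      rw [hμ.ZS_insert z hi]
      simp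
    refine h1.trans ?_
    rw [prod_insert hi, mul_pow, mul_assoc]
    exact mul_le_mul_of_nonneg_left ih (sq_nonneg _)

lemma ZS_eq_of_dep (z : ∀ i, X i → X i → ℝ) {S : Finset ι} {G : (∀ i, X i) → ℝ}
    (hG : DepOn S G) (y : ∀ i, X i) :
    ZS μ z S G y = EX μ (fun x => (∏ i ∈ S, z i (x i) (y i)) * G x) := by
  unfold ZS
  congr 1
  funext x
  rw [hG (S.piecewise x y) x (fun i hi => by simp [hi])]

/-- hypotheses on the kernel data -/
structure KD (μ : ∀ i, X i → ℝ) (z : ∀ i, X i → X i → ℝ) (al be : ∀ i, X i → ℝ)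
    (lam a b : ι → ℝ) : Prop where
  lam0 : ∀ i, 0 ≤ lam i
  a0 : ∀ i, 0 ≤ a i
  b0 : ∀ i, 0 ≤ b i
  zc1 : ∀ i, ∀ y, ∑ t, μ i t * z i t y = 0
  zc2 : ∀ i, ∀ x, ∑ t, μ i t * z i x t = 0
  alc : ∀ i, ∑ t, μ i t * al i t = 0
  bec : ∀ i, ∑ t, μ i t * be i t = 0
  aln : ∀ i, ∑ t, μ i t * al i t ^ 2 ≤ a i ^ 2
  ben : ∀ i, ∑ t, μ i t * be i t ^ 2 ≤ b i ^ 2
  zn : ∀ i, ∀ v : X i → ℝ,
      ∑ s, μ i s * (∑ t, μ i t * (z i t s * v t)) ^ 2 ≤ lam i ^ 2 * ∑ t, μ i t * v t ^ 2

/-- a product structure function `∏_{i∈T} a_i(x_i) · G(x)` with `G` depending on `U` -/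
lemma DepOn.prod_mul {U T : Finset ι} {G : (∀ i, X i) → ℝ} (hG : DepOn U G) (a : ∀ i, X i → ℝ) :
    DepOn (U ∪ T) (fun x => (∏ i ∈ T, a i (x i)) * G x) := by
  intro x y h
  have h1 : ∏ i ∈ T, a i (x i) = ∏ i ∈ T, a i (y i) :=
    prod_congr rfl fun i hi => by rw [h i (mem_union_right _ hi)]
  simp only
  rw [h1, hG x y fun i hi => h i (mem_union_left _ hi)]

lemma Cent.prod_mul_right {U T : Finset ι} (hUT : Disjoint U T) {G : (∀ i, X i) → ℝ}
    {i : ι} (hi : i ∈ U) (hG : Cent μ i G) (a : ∀ i, X i → ℝ) :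
    Cent μ i (fun x => (∏ i ∈ T, a i (x i)) * G x) := by
  intro x
  have hiT : i ∉ T := fun h => (disjoint_left.1 hUT) hi h
  have h1 : ∀ t, ∏ j ∈ T, a j (Function.update x i t j) = ∏ j ∈ T, a j (x j) := fun t =>
    prod_congr rfl fun j hj => by
      have hji : j ≠ i := fun e => hiT (e ▸ hj)
      rw [Function.update_of_ne hji]
  simp only [h1]
  have h2 : ∑ t, μ i t * ((∏ j ∈ T, a j (x j)) * G (Function.update x i t))
      = (∏ j ∈ T, a j (x j)) * ∑ t, μ i t * G (Function.update x i t) := by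
    rw [mul_sum]
    exact sum_congr rfl fun t _ => by ring
  rw [h2, hG x, mul_zero]

lemma Cent.prod_mul_left {U T : Finset ι} (hUT : Disjoint U T) {G : (∀ i, X i) → ℝ}
    (hG : DepOn U G) {i : ι} (hi : i ∈ T) (a : ∀ i, X i → ℝ) (ha : ∑ t, μ i t * a i t = 0) :
    Cent μ i (fun x => (∏ i ∈ T, a i (x i)) * G x) := by
  intro x
  have hiU : i ∉ U := fun h => (disjoint_left.1 hUT) h hi
  have h1 : ∀ t, μ i t * ((∏ j ∈ T, a j (Function.update x i t j)) * G (Function.update x i t))
      = (μ i t * a i t) * ((∏ j ∈ T.erase i, a j (x j)) * G x) := by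
    intro t
    rw [← mul_prod_erase T _ hi]
    have e1 : ∏ j ∈ T.erase i, a j (Function.update x i t j) = ∏ j ∈ T.erase i, a j (x j) :=
      prod_congr rfl fun j hj => by
        rw [Function.update_of_ne (ne_of_mem_erase hj)]
    have e2 : G (Function.update x i t) = G x :=
      hG _ _ fun j hj => by
        have hji : j ≠ i := fun e => hiU (e ▸ hj)
        rw [Function.update_of_ne hji]
    rw [e1, e2]
    simp
    ring
  simp only [h1]
  rw [← sum_mul, ha, zero_mul]

/-- `∏_{i∈T} a_i · G` has `L²` norm at most `∏ ‖a_i‖ · ‖G‖` -/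
lemma PM.norm_prod_mul (hμ : PM μ) {U T : Finset ι} (hUT : Disjoint U T)
    {G : (∀ i, X i) → ℝ} (hG : DepOn U G) (al : ∀ i, X i → ℝ) (a : ι → ℝ)
    (ha : ∀ i, ∑ t, μ i t * al i t ^ 2 ≤ a i ^ 2) :
    EX μ (fun x => ((∏ i ∈ T, al i (x i)) * G x) ^ 2) ≤
      (∏ i ∈ T, a i) ^ 2 * EX μ (fun x => G x ^ 2) := by
  have h1 : (fun x : ∀ i, X i => ((∏ i ∈ T, al i (x i)) * G x) ^ 2)
      = fun x => (∏ i ∈ T, (fun j t => al j t ^ 2) i (x i)) * G x ^ 2 := by
    funext x
    rw [mul_pow, ← prod_pow]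
  rw [h1, hμ.indep T (fun j t => al j t ^ 2) (fun x => G x ^ 2)]
  · rw [← prod_pow]
    refine mul_le_mul_of_nonneg_right ?_ (hμ.EX_nonneg fun x => sq_nonneg _)
    exact prod_le_prod (fun i _ => sum_nonneg fun t _ => mul_nonneg (hμ.nn _ _) (sq_nonneg _))
      fun i _ => ha i
  · intro i hi x t
    have hiU : i ∉ U := fun h => (disjoint_left.1 hUT) h hi
    have : G (Function.update x i t) = G x :=
      hG _ _ fun j hj => by
        have hji : j ≠ i := fun e => hiU (e ▸ hj)
        rw [Function.update_of_ne hji]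
    simp only [this]

/-- the bilinear term with kernel on `U`, tilts on `T`, `T'` -/
def trm (μ : ∀ i, X i → ℝ) (z : ∀ i, X i → X i → ℝ) (al be : ∀ i, X i → ℝ)
    (U T T' : Finset ι) (f g : (∀ i, X i) → ℝ) : ℝ :=
  EX μ (fun x => EX μ (fun y => f x * g y *
    ((∏ i ∈ U, z i (x i) (y i)) * (∏ i ∈ T, al i (x i)) * (∏ i ∈ T', be i (y i)))))

lemma EX_comm (F : (∀ i, X i) → (∀ i, X i) → ℝ) :
    EX μ (fun x => EX μ (fun y => F x y)) = EX μ (fun y => EX μ (fun x => F x y)) := by
  unfold EX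
  simp only [mul_sum]
  rw [sum_comm]
  refine sum_congr rfl fun y _ => sum_congr rfl fun x _ => by ring

/-- KEY bound -/
theorem PM.key (hμ : PM μ) {z : ∀ i, X i → X i → ℝ} {al be : ∀ i, X i → ℝ}
    {lam a b : ι → ℝ} (hK : KD μ z al be lam a b) {U T T' : Finset ι}
    (hT : Disjoint U T) (hT' : Disjoint U T') (f g : (∀ i, X i) → ℝ) :
    |trm μ z al be U T T' f g| ≤ (∏ i ∈ U, lam i) * (∏ i ∈ T, a i) * (∏ i ∈ T', b i) *
      (Real.sqrt (en μ (U ∪ T) f) * Real.sqrt (en μ (U ∪ T') g)) := by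
  -- the function of x obtained by integrating y
  set G : (∀ i, X i) → ℝ := fun x =>
    EX μ (fun y => g y * ((∏ i ∈ U, z i (x i) (y i)) * (∏ i ∈ T', be i (y i)))) with hGdef
  have hGdep : DepOn U G := by
    intro x x' h
    have : ∀ y : ∀ i, X i, ∏ i ∈ U, z i (x i) (y i) = ∏ i ∈ U, z i (x' i) (y i) := fun y =>
      prod_congr rfl fun i hi => by rw [h i hi]
    simp only [hGdef, this]
  have hGcent : ∀ i ∈ U, Cent μ i G := by
    intro i hi x
    have h1 : ∀ t, μ i t * G (Function.update x i t) =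
        EX μ (fun y => (g y * ((∏ j ∈ U.erase i, z j (x j) (y j)) * (∏ i ∈ T', be i (y i)))) *
          (μ i t * z i t (y i))) := by
      intro t
      simp only [hGdef]
      rw [← EX_smul]
      congr 1
      funext y
      rw [← mul_prod_erase U _ hi]
      have e1 : ∏ j ∈ U.erase i, z j (Function.update x i t j) (y j)
          = ∏ j ∈ U.erase i, z j (x j) (y j) :=
        prod_congr rfl fun j hj => by
          rw [Function.update_of_ne (ne_of_mem_erase hj)]
      rw [e1]
      simp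
      ring
    simp only [h1]
    rw [← EX_sum]
    have h2 : (fun y : ∀ i, X i => ∑ t, (g y * ((∏ j ∈ U.erase i, z j (x j) (y j)) *
        (∏ i ∈ T', be i (y i)))) * (μ i t * z i t (y i))) = fun _ => 0 := by
      funext y
      rw [← mul_sum, hK.zc1 i, mul_zero]
    rw [h2]
    simp [EX]
  -- norm of G
  have hGn : Real.sqrt (EX μ (fun x => G x ^ 2)) ≤
      (∏ i ∈ U, lam i) * (∏ i ∈ T', b i) * Real.sqrt (en μ (U ∪ T') g) := by
    set N := Real.sqrt (EX μ (fun x => G x ^ 2)) with hN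
    have hN0 : 0 ≤ N := Real.sqrt_nonneg _
    have hNN : N * N = EX μ (fun x => G x ^ 2) :=
      Real.mul_self_sqrt (hμ.EX_nonneg fun x => sq_nonneg _)
    have h1 : EX μ (fun x => G x ^ 2) =
        EX μ (fun y => g y * ((∏ i ∈ T', be i (y i)) * ZS μ z U G y)) := by
      have : (fun x => G x ^ 2) = fun x => EX μ (fun y => G x *
          (g y * ((∏ i ∈ U, z i (x i) (y i)) * (∏ i ∈ T', be i (y i))))) := by
        funext x
        rw [EX_smul, sq]
      rw [this, EX_comm]
      congr 1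
      funext y
      rw [ZS_eq_of_dep z hGdep, ← EX_smul, ← EX_smul]
      congr 1
      funext x
      ring
    have hZdep : DepOn U (ZS μ z U G) := by
      intro y y' h
      rw [ZS_eq_of_dep z hGdep, ZS_eq_of_dep z hGdep]
      congr 1
      funext x
      rw [prod_congr rfl fun i hi => by rw [h i hi]]
    have hZcent : ∀ i ∈ U, Cent μ i (ZS μ z U G) := by
      intro i hi y
      have h1 : ∀ t, μ i t * ZS μ z U G (Function.update y i t) =
          EX μ (fun x => ((∏ j ∈ U.erase i, z j (x j) (y j)) * G x) *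
            (μ i t * z i (x i) t)) := by
        intro t
        rw [ZS_eq_of_dep z hGdep, ← EX_smul]
        congr 1
        funext x
        rw [← mul_prod_erase U _ hi]
        have e1 : ∏ j ∈ U.erase i, z j (x j) (Function.update y i t j)
            = ∏ j ∈ U.erase i, z j (x j) (y j) :=
          prod_congr rfl fun j hj => by
            rw [Function.update_of_ne (ne_of_mem_erase hj)]
        rw [e1]
        simp
        ring
      simp only [h1]
      rw [← EX_sum]
      have h2 : (fun x : ∀ i, X i => ∑ t, ((∏ j ∈ U.erase i, z j (x j) (y j)) * G x) *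
          (μ i t * z i (x i) t)) = fun _ => 0 := by
        funext x
        rw [← mul_sum, hK.zc2 i, mul_zero]
      rw [h2]
      simp [EX]
    have h2 := hμ.pure_bound (W := U ∪ T')
      (h := fun y => (∏ i ∈ T', be i (y i)) * ZS μ z U G y)
      (hZdep.prod_mul be) (fun i hi => by
        rcases mem_union.1 hi with hi | hi
        · exact Cent.prod_mul_right hT' hi (hZcent i hi) be
        · exact Cent.prod_mul_left hT' hZdep hi be (hK.bec i)) g
    have h3 := hμ.norm_prod_mul hT' hZdep be b hK.ben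
    have h4 := hμ.ZS_norm z lam hK.zn U G
    have h5 : Real.sqrt (EX μ (fun y => ((∏ i ∈ T', be i (y i)) * ZS μ z U G y) ^ 2)) ≤
        (∏ i ∈ T', b i) * ((∏ i ∈ U, lam i) * N) := by
      apply Real.sqrt_le_iff.2
      refine ⟨mul_nonneg (prod_nonneg fun i _ => hK.b0 i)
        (mul_nonneg (prod_nonneg fun i _ => hK.lam0 i) hN0), ?_⟩
      refine h3.trans ?_
      calc (∏ i ∈ T', b i) ^ 2 * EX μ (fun x => ZS μ z U G x ^ 2)
          ≤ (∏ i ∈ T', b i) ^ 2 * ((∏ i ∈ U, lam i) ^ 2 * EX μ (fun y => G y ^ 2)) :=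
            mul_le_mul_of_nonneg_left h4 (sq_nonneg _)
        _ = _ := by rw [← hNN]; ring
    have h6 : N * N ≤ ((∏ i ∈ U, lam i) * (∏ i ∈ T', b i) * Real.sqrt (en μ (U ∪ T') g)) * N := by
      calc N * N = EX μ (fun y => g y * ((∏ i ∈ T', be i (y i)) * ZS μ z U G y)) := by
            rw [hNN, h1]
        _ ≤ |EX μ (fun y => g y * ((∏ i ∈ T', be i (y i)) * ZS μ z U G y))| := le_abs_self _
        _ ≤ _ := h2
        _ ≤ Real.sqrt (en μ (U ∪ T') g) * ((∏ i ∈ T', b i) * ((∏ i ∈ U, lam i) * N)) :=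
            mul_le_mul_of_nonneg_left h5 (Real.sqrt_nonneg _)
        _ = _ := by ring
    rcases hN0.eq_or_lt with h0 | h0
    · rw [← h0]
      exact mul_nonneg (mul_nonneg (prod_nonneg fun i _ => hK.lam0 i)
        (prod_nonneg fun i _ => hK.b0 i)) (Real.sqrt_nonneg _)
    · exact le_of_mul_le_mul_right h6 h0
  -- the term
  have ht : trm μ z al be U T T' f g = EX μ (fun x => f x * ((∏ i ∈ T, al i (x i)) * G x)) := by
    unfold trm
    congr 1
    funext x
    simp only [hGdef]
    rw [← EX_smul, ← EX_smul]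
    congr 1
    funext y
    ring
  rw [ht]
  have h2 := hμ.pure_bound (W := U ∪ T)
      (h := fun x => (∏ i ∈ T, al i (x i)) * G x)
      (hGdep.prod_mul al) (fun i hi => by
        rcases mem_union.1 hi with hi | hi
        · exact Cent.prod_mul_right hT hi (hGcent i hi) al
        · exact Cent.prod_mul_left hT hGdep hi al (hK.alc i)) f
  have h3 := hμ.norm_prod_mul hT hGdep al a hK.aln
  have h5 : Real.sqrt (EX μ (fun y => ((∏ i ∈ T, al i (y i)) * G y) ^ 2)) ≤
      (∏ i ∈ T, a i) * Real.sqrt (EX μ (fun x => G x ^ 2)) := by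
    apply Real.sqrt_le_iff.2
    refine ⟨mul_nonneg (prod_nonneg fun i _ => hK.a0 i) (Real.sqrt_nonneg _), ?_⟩
    rw [mul_pow, Real.sq_sqrt (hμ.EX_nonneg fun x => sq_nonneg _)]
    exact h3
  calc |EX μ (fun x => f x * ((∏ i ∈ T, al i (x i)) * G x))|
      ≤ _ := h2
    _ ≤ Real.sqrt (en μ (U ∪ T) f) * ((∏ i ∈ T, a i) *
        ((∏ i ∈ U, lam i) * (∏ i ∈ T', b i) * Real.sqrt (en μ (U ∪ T') g))) := by
        refine mul_le_mul_of_nonneg_left ?_ (Real.sqrt_nonneg _)
        exact h5.trans (mul_le_mul_of_nonneg_left hGn (prod_nonneg fun i _ => hK.a0 i))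
    _ = _ := by ring

end Vale.Agent.P042.H455
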