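import Vale.Agent.P042.H455.TiltB

set_option autoImplicit false
set_option linter.unusedSectionVars false
set_option linter.unusedVariables false

/-!
The exact tilt identity and the final inequality.
-/

namespace Vale.Agent.P042.H455

open Finset

variable {ι : Type*} [Fintype ι] [DecidableEq ι] {X : ι → Type*} [∀ i, Fintype (X i)]
  {μ : ∀ i, X i → ℝ}

/-- the bilinear form with kernel `M_i = (1 + al_i)(1 + be_i) + z_i` -/
def BM (μ : ∀ i, X i → ℝ) (z : ∀ i, X i → X i → ℝ) (al be : ∀ i, X i → ℝ)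
    (f g : (∀ i, X i) → ℝ) : ℝ :=
  EX μ (fun x => EX μ (fun y => f x * g y *
    ∏ i, (z i (x i) (y i) + (1 + al i (x i)) * (1 + be i (y i)))))

/-- expansion of the product kernel -/
lemma BM_expand (z : ∀ i, X i → X i → ℝ) (al be : ∀ i, X i → ℝ) (f g : (∀ i, X i) → ℝ) :
    BM μ z al be f g = ∑ U : Finset ι, ∑ T ∈ Uᶜ.powerset, ∑ T' ∈ Uᶜ.powerset,
      trm μ z al be U T T' f g := by
  have h1 : ∀ x y : ∀ i, X i,
      ∏ i, (z i (x i) (y i) + (1 + al i (x i)) * (1 + be i (y i))) =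
      ∑ U : Finset ι, ∑ T ∈ Uᶜ.powerset, ∑ T' ∈ Uᶜ.powerset,
        ((∏ i ∈ U, z i (x i) (y i)) * (∏ i ∈ T, al i (x i)) * (∏ i ∈ T', be i (y i))) := by
    intro x y
    rw [prod_add, powerset_univ]
    refine sum_congr rfl fun U _ => ?_
    rw [prod_mul_distrib, ← compl_eq_univ_sdiff, prod_one_add, prod_one_add,
      sum_mul_sum, mul_sum]
    refine sum_congr rfl fun T _ => ?_
    rw [mul_sum]
    exact sum_congr rfl fun T' _ => by ring
  unfold BM
  simp only [h1, mul_sum, EX_sum]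
  rfl

lemma sum_reindex (F : Finset ι → Finset ι → ℝ) :
    ∑ U : Finset ι, ∑ T ∈ Uᶜ.powerset, F U T = ∑ W : Finset ι, ∑ U ∈ W.powerset, F U (W \ U) := by
  rw [sum_sigma', sum_sigma']
  refine sum_bij' (fun p _ => ⟨p.1 ∪ p.2, p.1⟩) (fun p _ => ⟨p.2, p.1 \ p.2⟩) ?_ ?_ ?_ ?_ ?_
  · rintro ⟨U, T⟩ h
    simp only [mem_sigma, mem_univ, mem_powerset, true_and] at h ⊢
    exact subset_union_left
  · rintro ⟨W, U⟩ h
    simp only [mem_sigma, mem_univ, mem_powerset, true_and] at h ⊢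
    intro i hi
    rw [mem_compl]
    exact (mem_sdiff.1 hi).2
  · rintro ⟨U, T⟩ h
    simp only [mem_sigma, mem_univ, mem_powerset, true_and] at h
    have : Disjoint U T := by
      rw [disjoint_right]
      intro i hi
      exact mem_compl.1 (h hi)
    simp [union_sdiff_cancel_left this]
  · rintro ⟨W, U⟩ h
    simp only [mem_sigma, mem_univ, mem_powerset, true_and] at h
    simp [union_sdiff_of_subset h]
  · rintro ⟨U, T⟩ h
    simp only [mem_sigma, mem_univ, mem_powerset, true_and] at h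
    have : Disjoint U T := by
      rw [disjoint_right]
      intro i hi
      exact mem_compl.1 (h hi)
    simp [union_sdiff_cancel_left this]

/-- `√en` without the empty component -/
noncomputable def pp (μ : ∀ i, X i → ℝ) (f : (∀ i, X i) → ℝ) (W : Finset ι) : ℝ :=
  if W = ∅ then 0 else Real.sqrt (en μ W f)

/-- energy without the empty component, at rates `r` -/
def EN (μ : ∀ i, X i → ℝ) (r : ι → ℝ) (f : (∀ i, X i) → ℝ) : ℝ :=
  ∑ W : Finset ι, if W = ∅ then 0 else (∏ i ∈ W, r i) * en μ W f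

lemma pp_nonneg (f : (∀ i, X i) → ℝ) (W : Finset ι) : 0 ≤ pp μ f W := by
  unfold pp
  split_ifs
  · exact le_rfl
  · exact Real.sqrt_nonneg _

lemma PM.pp_sq (hμ : PM μ) (f : (∀ i, X i) → ℝ) (W : Finset ι) :
    pp μ f W ^ 2 = if W = ∅ then 0 else en μ W f := by
  unfold pp
  split_ifs
  · simp
  · exact Real.sq_sqrt (hμ.en_nonneg _ _)

lemma PM.EN_nonneg (hμ : PM μ) {r : ι → ℝ} (hr : ∀ i, 0 ≤ r i) (f : (∀ i, X i) → ℝ) :
    0 ≤ EN μ r f := by
  refine sum_nonneg fun W _ => ?_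
  split_ifs
  · exact le_rfl
  · exact mul_nonneg (prod_nonneg fun i _ => hr i) (hμ.en_nonneg _ _)

lemma PM.comp_empty (hμ : PM μ) (f : (∀ i, X i) → ℝ) (x : ∀ i, X i) :
    comp μ ∅ f x = EX μ f := by
  simp [comp, PS, EX]

lemma PM.en_empty (hμ : PM μ) (f : (∀ i, X i) → ℝ) : en μ ∅ f = (EX μ f) ^ 2 := by
  unfold en
  simp only [hμ.comp_empty]
  exact hμ.EX_const _

/-- Cauchy-Schwarz with rate room, for one `U` -/
lemma cs_rate (a sig : ι → ℝ) (ha : ∀ i, 0 ≤ a i) (hs : ∀ i, 0 < sig i) (S : Finset ι)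
    (p : Finset ι → ℝ) (hp : ∀ T, 0 ≤ p T) :
    ∑ T ∈ S.powerset, (∏ i ∈ T, a i) * p T ≤
      Real.sqrt (∏ i ∈ S, (1 + a i ^ 2 / sig i)) *
        Real.sqrt (∑ T ∈ S.powerset, (∏ i ∈ T, sig i) * p T ^ 2) := by
  rw [← Real.sqrt_mul (prod_nonneg fun i _ => add_nonneg zero_le_one
    (div_nonneg (sq_nonneg _) (hs i).le))]
  apply Real.le_sqrt_of_sq_le
  have h1 := Finset.sum_mul_sq_le_sq_mul_sq S.powerset
    (fun T => ∏ i ∈ T, (a i / Real.sqrt (sig i))) (fun T => (∏ i ∈ T, Real.sqrt (sig i)) * p T)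
  have e1 : ∀ T ∈ S.powerset, (∏ i ∈ T, (a i / Real.sqrt (sig i))) *
      ((∏ i ∈ T, Real.sqrt (sig i)) * p T) = (∏ i ∈ T, a i) * p T := by
    intro T _
    rw [← mul_assoc, ← prod_mul_distrib]
    congr 1
    refine prod_congr rfl fun i _ => ?_
    exact div_mul_cancel₀ _ (Real.sqrt_pos.2 (hs i)).ne'
  have e2 : ∑ T ∈ S.powerset, (∏ i ∈ T, (a i / Real.sqrt (sig i))) ^ 2
      = ∏ i ∈ S, (1 + a i ^ 2 / sig i) := by
    rw [prod_one_add]
    refine sum_congr rfl fun T _ => ?_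
    rw [← prod_pow]
    refine prod_congr rfl fun i _ => ?_
    rw [div_pow, Real.sq_sqrt (hs i).le]
  have e3 : ∑ T ∈ S.powerset, ((∏ i ∈ T, Real.sqrt (sig i)) * p T) ^ 2
      = ∑ T ∈ S.powerset, (∏ i ∈ T, sig i) * p T ^ 2 := by
    refine sum_congr rfl fun T _ => ?_
    rw [mul_pow, ← prod_pow]
    congr 1
    exact prod_congr rfl fun i _ => Real.sq_sqrt (hs i).le
  rw [sum_congr rfl e1, e2, e3] at h1
  exact h1

/-- version without the empty set -/
lemma cs_rate' (a sig : ι → ℝ) (ha : ∀ i, 0 ≤ a i) (hs : ∀ i, 0 < sig i) (S : Finset ι)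
    (p : Finset ι → ℝ) (hp0 : p ∅ = 0) (hp : ∀ T, 0 ≤ p T) :
    ∑ T ∈ S.powerset, (∏ i ∈ T, a i) * p T ≤
      Real.sqrt ((∏ i ∈ S, (1 + a i ^ 2 / sig i)) - 1) *
        Real.sqrt (∑ T ∈ S.powerset, (∏ i ∈ T, sig i) * p T ^ 2) := by
  have hP : (1 : ℝ) ≤ ∏ i ∈ S, (1 + a i ^ 2 / sig i) := by
    refine Finset.one_le_prod fun i _ => ?_
    have := div_nonneg (sq_nonneg (a i)) (hs i).le
    linarith
  rw [← Real.sqrt_mul (by linarith)]
  apply Real.le_sqrt_of_sq_le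
  have h1 := Finset.sum_mul_sq_le_sq_mul_sq (S.powerset.erase ∅)
    (fun T => ∏ i ∈ T, (a i / Real.sqrt (sig i))) (fun T => (∏ i ∈ T, Real.sqrt (sig i)) * p T)
  have e1 : ∀ T ∈ S.powerset.erase ∅, (∏ i ∈ T, (a i / Real.sqrt (sig i))) *
      ((∏ i ∈ T, Real.sqrt (sig i)) * p T) = (∏ i ∈ T, a i) * p T := by
    intro T _
    rw [← mul_assoc, ← prod_mul_distrib]
    congr 1
    refine prod_congr rfl fun i _ => ?_
    exact div_mul_cancel₀ _ (Real.sqrt_pos.2 (hs i)).ne'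
  have hmem : ∅ ∈ S.powerset := empty_mem_powerset S
  have e2 : ∑ T ∈ S.powerset.erase ∅, (∏ i ∈ T, (a i / Real.sqrt (sig i))) ^ 2
      = (∏ i ∈ S, (1 + a i ^ 2 / sig i)) - 1 := by
    rw [prod_one_add, ← add_sum_erase _ _ hmem]
    simp only [prod_empty, add_sub_cancel_left]
    refine sum_congr rfl fun T _ => ?_
    rw [← prod_pow]
    refine prod_congr rfl fun i _ => ?_
    rw [div_pow, Real.sq_sqrt (hs i).le]
  have e3 : ∑ T ∈ S.powerset.erase ∅, ((∏ i ∈ T, Real.sqrt (sig i)) * p T) ^ 2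
      = ∑ T ∈ S.powerset, (∏ i ∈ T, sig i) * p T ^ 2 := by
    rw [← add_sum_erase _ _ hmem]
    simp only [prod_empty, hp0]
    rw [show (1 : ℝ) * 0 ^ 2 = 0 by norm_num, zero_add]
    refine sum_congr rfl fun T _ => ?_
    rw [mul_pow, ← prod_pow]
    congr 1
    exact prod_congr rfl fun i _ => Real.sq_sqrt (hs i).le
  have e4 : ∑ T ∈ S.powerset, (∏ i ∈ T, a i) * p T
      = ∑ T ∈ S.powerset.erase ∅, (∏ i ∈ T, a i) * p T := by
    rw [← add_sum_erase _ _ hmem]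
    simp [hp0]
  rw [sum_congr rfl e1, e2, e3] at h1
  rw [e4]
  exact h1

/-- the energies at rates `lam + sig` as a double sum -/
lemma PM.EN_double (hμ : PM μ) (lam sig : ι → ℝ) (f : (∀ i, X i) → ℝ) :
    ∑ U : Finset ι, (∏ i ∈ U, lam i) *
      ∑ T ∈ Uᶜ.powerset, (∏ i ∈ T, sig i) * pp μ f (U ∪ T) ^ 2 =
    EN μ (fun i => lam i + sig i) f := by
  have h1 : ∑ U : Finset ι, (∏ i ∈ U, lam i) *
      ∑ T ∈ Uᶜ.powerset, (∏ i ∈ T, sig i) * pp μ f (U ∪ T) ^ 2 =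
      ∑ U : Finset ι, ∑ T ∈ Uᶜ.powerset,
        (∏ i ∈ U, lam i) * ((∏ i ∈ T, sig i) * pp μ f (U ∪ T) ^ 2) :=
    sum_congr rfl fun U _ => by rw [mul_sum]
  rw [h1, sum_reindex (fun U T => (∏ i ∈ U, lam i) * ((∏ i ∈ T, sig i) * pp μ f (U ∪ T) ^ 2))]
  unfold EN
  refine sum_congr rfl fun W _ => ?_
  have h2 : ∑ U ∈ W.powerset, (∏ i ∈ U, lam i) *
      ((∏ i ∈ W \ U, sig i) * pp μ f (U ∪ W \ U) ^ 2) =
      (∏ i ∈ W, (lam i + sig i)) * pp μ f W ^ 2 := by
    rw [prod_add, sum_mul]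
    refine sum_congr rfl fun U hU => ?_
    rw [union_sdiff_of_subset (mem_powerset.1 hU)]
    ring
  rw [h2, hμ.pp_sq]
  split_ifs <;> simp

lemma prod_compl_le {c : ι → ℝ} (hc : ∀ i, 1 ≤ c i) (U : Finset ι) :
    ∏ i ∈ Uᶜ, c i ≤ ∏ i, c i := by
  rw [← prod_compl_mul_prod U]
  have h1 : (1 : ℝ) ≤ ∏ i ∈ U, c i := Finset.one_le_prod fun i _ => hc i
  have h2 : (0 : ℝ) ≤ ∏ i ∈ Uᶜ, c i := prod_nonneg fun i _ => le_trans zero_le_one (hc i)
  nlinarith

/-- the main inequality -/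
theorem PM.tilt_main (hμ : PM μ) {z : ∀ i, X i → X i → ℝ} {al be : ∀ i, X i → ℝ}
    {lam a b : ι → ℝ} (hK : KD μ z al be lam a b) (sig : ι → ℝ) (hs : ∀ i, 0 < sig i)
    (f g : (∀ i, X i) → ℝ) :
    |BM μ z al be f g - EX μ f * EX μ g| ≤
      |EX μ f| * (Real.sqrt ((∏ i, (1 + b i ^ 2 / sig i)) - 1) *
        Real.sqrt (EN μ (fun i => lam i + sig i) g)) +
      |EX μ g| * (Real.sqrt ((∏ i, (1 + a i ^ 2 / sig i)) - 1) *
        Real.sqrt (EN μ (fun i => lam i + sig i) f)) +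
      Real.sqrt (∏ i, (1 + a i ^ 2 / sig i)) * Real.sqrt (∏ i, (1 + b i ^ 2 / sig i)) *
        (Real.sqrt (EN μ (fun i => lam i + sig i) f) *
          Real.sqrt (EN μ (fun i => lam i + sig i) g)) := by
  set p : Finset ι → ℝ := fun W => Real.sqrt (en μ W f) with hp
  set q : Finset ι → ℝ := fun W => Real.sqrt (en μ W g) with hq
  have hp0 : ∀ W, 0 ≤ p W := fun W => Real.sqrt_nonneg _
  have hq0 : ∀ W, 0 ≤ q W := fun W => Real.sqrt_nonneg _
  have hpe : p ∅ = |EX μ f| := by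
    rw [hp]; simp only; rw [hμ.en_empty, Real.sqrt_sq_eq_abs]
  have hqe : q ∅ = |EX μ g| := by
    rw [hq]; simp only; rw [hμ.en_empty, Real.sqrt_sq_eq_abs]
  set L : Finset ι → ℝ := fun U => ∏ i ∈ U, lam i with hL
  have hL0 : ∀ U, 0 ≤ L U := fun U => prod_nonneg fun i _ => hK.lam0 i
  set A : Finset ι → ℝ := fun U => ∏ i ∈ U, a i with hA
  have hA0 : ∀ U, 0 ≤ A U := fun U => prod_nonneg fun i _ => hK.a0 i
  set B : Finset ι → ℝ := fun U => ∏ i ∈ U, b i with hB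
  have hB0 : ∀ U, 0 ≤ B U := fun U => prod_nonneg fun i _ => hK.b0 i
  -- triple sums
  set bd : Finset ι → Finset ι → Finset ι → ℝ := fun U T T' =>
    L U * A T * B T' * (p (U ∪ T) * q (U ∪ T')) with hbd
  have ht0 : trm μ z al be ∅ ∅ ∅ f g = EX μ f * EX μ g := by
    unfold trm
    simp only [prod_empty, mul_one]
    have : (fun x => EX μ (fun y => f x * g y)) = fun x => EX μ g * f x := by
      funext x
      rw [EX_smul, mul_comm]
    rw [this, EX_smul, mul_comm]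
  have hb0 : bd ∅ ∅ ∅ = |EX μ f| * |EX μ g| := by
    simp [hbd, hL, hA, hB, ← hpe, ← hqe]
  have hmain : |BM μ z al be f g - EX μ f * EX μ g| ≤
      (∑ U : Finset ι, ∑ T ∈ Uᶜ.powerset, ∑ T' ∈ Uᶜ.powerset, bd U T T')
        - |EX μ f| * |EX μ g| := by
    have e1 : ∀ c : ℝ, ∑ U : Finset ι, ∑ T ∈ Uᶜ.powerset, ∑ T' ∈ Uᶜ.powerset,
        (if U = ∅ ∧ T = ∅ ∧ T' = ∅ then c else 0) = c := by
      intro c
      rw [sum_eq_single ∅]
      · rw [sum_eq_single ∅]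
        · rw [sum_eq_single ∅]
          · simp
          · intro T' _ h; simp [h]
          · intro h; exact absurd (empty_mem_powerset _) h
        · intro T _ h; simp [h]
        · intro h; exact absurd (empty_mem_powerset _) h
      · intro U _ h; simp [h]
      · intro h; exact absurd (mem_univ _) h
    have e2 : BM μ z al be f g - EX μ f * EX μ g =
        ∑ U : Finset ι, ∑ T ∈ Uᶜ.powerset, ∑ T' ∈ Uᶜ.powerset,
          (trm μ z al be U T T' f g -
            (if U = ∅ ∧ T = ∅ ∧ T' = ∅ then EX μ f * EX μ g else 0)) := by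
      rw [BM_expand]
      conv_lhs => rw [← e1 (EX μ f * EX μ g)]
      simp only [sum_sub_distrib]
    have e3 : (∑ U : Finset ι, ∑ T ∈ Uᶜ.powerset, ∑ T' ∈ Uᶜ.powerset, bd U T T')
        - |EX μ f| * |EX μ g| =
        ∑ U : Finset ι, ∑ T ∈ Uᶜ.powerset, ∑ T' ∈ Uᶜ.powerset,
          (bd U T T' - (if U = ∅ ∧ T = ∅ ∧ T' = ∅ then |EX μ f| * |EX μ g| else 0)) := by
      conv_lhs => rw [← e1 (|EX μ f| * |EX μ g|)]
      simp only [sum_sub_distrib]
    rw [e2, e3]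
    refine (abs_sum_le_sum_abs _ _).trans (sum_le_sum fun U _ => ?_)
    refine (abs_sum_le_sum_abs _ _).trans (sum_le_sum fun T hT => ?_)
    refine (abs_sum_le_sum_abs _ _).trans (sum_le_sum fun T' hT' => ?_)
    by_cases h : U = ∅ ∧ T = ∅ ∧ T' = ∅
    · rw [if_pos h, if_pos h]
      obtain ⟨rfl, rfl, rfl⟩ := h
      rw [ht0, hb0]
      simp
    · rw [if_neg h, if_neg h, sub_zero, sub_zero]
      have d1 : Disjoint U T := by
        rw [disjoint_right]; intro i hi; exact mem_compl.1 (mem_powerset.1 hT hi)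
      have d2 : Disjoint U T' := by
        rw [disjoint_right]; intro i hi; exact mem_compl.1 (mem_powerset.1 hT' hi)
      exact hμ.key hK d1 d2 f g
  -- factor the triple sum
  have hfac : (∑ U : Finset ι, ∑ T ∈ Uᶜ.powerset, ∑ T' ∈ Uᶜ.powerset, bd U T T') =
      ∑ U : Finset ι, L U * ((∑ T ∈ Uᶜ.powerset, A T * p (U ∪ T)) *
        (∑ T' ∈ Uᶜ.powerset, B T' * q (U ∪ T'))) := by
    refine sum_congr rfl fun U _ => ?_
    rw [sum_mul_sum, mul_sum]
    refine sum_congr rfl fun T _ => ?_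
    rw [mul_sum]
    refine sum_congr rfl fun T' _ => ?_
    simp only [hbd]
    ring
  -- split the empty component
  set p' : Finset ι → ℝ := pp μ f with hp'
  set q' : Finset ι → ℝ := pp μ g with hq'
  have hpp : ∀ W, W ≠ ∅ → p W = p' W := fun W h => by simp [hp, hp', pp, h]
  have hqq : ∀ W, W ≠ ∅ → q W = q' W := fun W h => by simp [hq, hq', pp, h]
  have hpp0 : p' ∅ = 0 := by simp [hp', pp]
  have hqq0 : q' ∅ = 0 := by simp [hq', pp]
  set P : Finset ι → ℝ := fun U => ∑ T ∈ Uᶜ.powerset, A T * p' (U ∪ T) with hP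
  set Q : Finset ι → ℝ := fun U => ∑ T ∈ Uᶜ.powerset, B T * q' (U ∪ T) with hQ
  have hs1 : ∀ U : Finset ι, U ≠ ∅ → (∑ T ∈ Uᶜ.powerset, A T * p (U ∪ T)) = P U := by
    intro U hU
    refine sum_congr rfl fun T _ => ?_
    rw [hpp]
    intro h
    exact hU (union_eq_empty.1 h).1
  have hs2 : ∀ U : Finset ι, U ≠ ∅ → (∑ T ∈ Uᶜ.powerset, B T * q (U ∪ T)) = Q U := by
    intro U hU
    refine sum_congr rfl fun T _ => ?_
    rw [hqq]
    intro h
    exact hU (union_eq_empty.1 h).1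
  have hs3 : (∑ T ∈ (∅ : Finset ι)ᶜ.powerset, A T * p (∅ ∪ T)) = |EX μ f| + P ∅ := by
    simp only [hP]
    rw [← add_sum_erase _ _ (empty_mem_powerset _), ← add_sum_erase (s := (∅ : Finset ι)ᶜ.powerset)
      (f := fun T => A T * p' (∅ ∪ T)) (h := empty_mem_powerset _)]
    simp only [union_empty, hpp0, hpe, mul_zero, zero_add]
    have : A ∅ = 1 := by simp [hA]
    rw [this, one_mul]
    congr 1
    refine sum_congr rfl fun T hT => ?_
    rw [hpp _ (by simpa using ne_of_mem_erase hT)]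
  have hs4 : (∑ T ∈ (∅ : Finset ι)ᶜ.powerset, B T * q (∅ ∪ T)) = |EX μ g| + Q ∅ := by
    simp only [hQ]
    rw [← add_sum_erase _ _ (empty_mem_powerset _), ← add_sum_erase (s := (∅ : Finset ι)ᶜ.powerset)
      (f := fun T => B T * q' (∅ ∪ T)) (h := empty_mem_powerset _)]
    simp only [union_empty, hqq0, hqe, mul_zero, zero_add]
    have : B ∅ = 1 := by simp [hB]
    rw [this, one_mul]
    congr 1
    refine sum_congr rfl fun T hT => ?_
    rw [hqq _ (by simpa using ne_of_mem_erase hT)]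
  have hL1 : L ∅ = 1 := by simp [hL]
  have htot : (∑ U : Finset ι, L U * ((∑ T ∈ Uᶜ.powerset, A T * p (U ∪ T)) *
        (∑ T' ∈ Uᶜ.powerset, B T' * q (U ∪ T')))) - |EX μ f| * |EX μ g| =
      (∑ U : Finset ι, L U * (P U * Q U)) + |EX μ f| * Q ∅ + |EX μ g| * P ∅ := by
    rw [← add_sum_erase _ _ (mem_univ (∅ : Finset ι)),
      ← add_sum_erase (s := univ) (f := fun U => L U * (P U * Q U)) (h := mem_univ (∅ : Finset ι)),
      hs3, hs4, hL1]
    have : ∑ U ∈ univ.erase (∅ : Finset ι), L U * ((∑ T ∈ Uᶜ.powerset, A T * p (U ∪ T)) *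
        (∑ T' ∈ Uᶜ.powerset, B T' * q (U ∪ T'))) =
        ∑ U ∈ univ.erase (∅ : Finset ι), L U * (P U * Q U) := by
      refine sum_congr rfl fun U hU => ?_
      rw [hs1 U (ne_of_mem_erase hU), hs2 U (ne_of_mem_erase hU)]
    rw [this]
    ring
  -- abbreviations
  set PA : ℝ := ∏ i, (1 + a i ^ 2 / sig i) with hPA
  set PB : ℝ := ∏ i, (1 + b i ^ 2 / sig i) with hPB
  set Nf : ℝ := EN μ (fun i => lam i + sig i) f with hNf
  set Ng : ℝ := EN μ (fun i => lam i + sig i) g with hNg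
  have hls : ∀ i, 0 ≤ lam i + sig i := fun i => add_nonneg (hK.lam0 i) (hs i).le
  have hNf0 : 0 ≤ Nf := hμ.EN_nonneg hls f
  have hNg0 : 0 ≤ Ng := hμ.EN_nonneg hls g
  have hfa : ∀ i, (1 : ℝ) ≤ 1 + a i ^ 2 / sig i := fun i => by
    have := div_nonneg (sq_nonneg (a i)) (hs i).le
    linarith
  have hfb : ∀ i, (1 : ℝ) ≤ 1 + b i ^ 2 / sig i := fun i => by
    have := div_nonneg (sq_nonneg (b i)) (hs i).le
    linarith
  set FU : Finset ι → ℝ := fun U => ∑ T ∈ Uᶜ.powerset, (∏ i ∈ T, sig i) * p' (U ∪ T) ^ 2 with hFU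
  set HU : Finset ι → ℝ := fun U => ∑ T ∈ Uᶜ.powerset, (∏ i ∈ T, sig i) * q' (U ∪ T) ^ 2 with hHU
  have hFU0 : ∀ U, 0 ≤ FU U := fun U => sum_nonneg fun T _ =>
    mul_nonneg (prod_nonneg fun i _ => (hs i).le) (sq_nonneg _)
  have hHU0 : ∀ U, 0 ≤ HU U := fun U => sum_nonneg fun T _ =>
    mul_nonneg (prod_nonneg fun i _ => (hs i).le) (sq_nonneg _)
  have hsumF : ∑ U : Finset ι, L U * FU U = Nf := hμ.EN_double lam sig f
  have hsumH : ∑ U : Finset ι, L U * HU U = Ng := hμ.EN_double lam sig g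
  have hPU : ∀ U, P U ≤ Real.sqrt PA * Real.sqrt (FU U) := by
    intro U
    refine (cs_rate a sig hK.a0 hs Uᶜ (fun T => p' (U ∪ T)) (fun T => pp_nonneg _ _)).trans ?_
    refine mul_le_mul_of_nonneg_right ?_ (Real.sqrt_nonneg _)
    apply Real.sqrt_le_sqrt
    exact prod_compl_le (fun i => hfa i) U
  have hQU : ∀ U, Q U ≤ Real.sqrt PB * Real.sqrt (HU U) := by
    intro U
    refine (cs_rate b sig hK.b0 hs Uᶜ (fun T => q' (U ∪ T)) (fun T => pp_nonneg _ _)).trans ?_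
    refine mul_le_mul_of_nonneg_right ?_ (Real.sqrt_nonneg _)
    apply Real.sqrt_le_sqrt
    exact prod_compl_le (fun i => hfb i) U
  have hP0 : ∀ U, 0 ≤ P U := fun U => sum_nonneg fun T _ => mul_nonneg (hA0 T) (pp_nonneg _ _)
  have hQ0 : ∀ U, 0 ≤ Q U := fun U => sum_nonneg fun T _ => mul_nonneg (hB0 T) (pp_nonneg _ _)
  have hPe : P ∅ ≤ Real.sqrt (PA - 1) * Real.sqrt Nf := by
    have h1 := cs_rate' a sig hK.a0 hs (∅ : Finset ι)ᶜ (fun T => p' (∅ ∪ T))
      (by simpa using hpp0) (fun T => pp_nonneg _ _)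
    rw [compl_empty] at h1
    have h2 : P ∅ ≤ Real.sqrt (PA - 1) * Real.sqrt (FU ∅) := by
      simp only [hP, hFU, compl_empty]
      exact h1
    refine h2.trans (mul_le_mul_of_nonneg_left (Real.sqrt_le_sqrt ?_) (Real.sqrt_nonneg _))
    rw [← hsumF, ← add_sum_erase _ _ (mem_univ (∅ : Finset ι)), hL1, one_mul]
    have : 0 ≤ ∑ U ∈ univ.erase (∅ : Finset ι), L U * FU U :=
      sum_nonneg fun U _ => mul_nonneg (hL0 U) (hFU0 U)
    linarith
  have hQe : Q ∅ ≤ Real.sqrt (PB - 1) * Real.sqrt Ng := by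
    have h1 := cs_rate' b sig hK.b0 hs (∅ : Finset ι)ᶜ (fun T => q' (∅ ∪ T))
      (by simpa using hqq0) (fun T => pp_nonneg _ _)
    rw [compl_empty] at h1
    have h2 : Q ∅ ≤ Real.sqrt (PB - 1) * Real.sqrt (HU ∅) := by
      simp only [hQ, hHU, compl_empty]
      exact h1
    refine h2.trans (mul_le_mul_of_nonneg_left (Real.sqrt_le_sqrt ?_) (Real.sqrt_nonneg _))
    rw [← hsumH, ← add_sum_erase _ _ (mem_univ (∅ : Finset ι)), hL1, one_mul]
    have : 0 ≤ ∑ U ∈ univ.erase (∅ : Finset ι), L U * HU U :=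
      sum_nonneg fun U _ => mul_nonneg (hL0 U) (hHU0 U)
    linarith
  have hUsum : ∑ U : Finset ι, L U * (P U * Q U) ≤
      Real.sqrt PA * Real.sqrt PB * (Real.sqrt Nf * Real.sqrt Ng) := by
    have h1 : ∀ U, L U * (P U * Q U) ≤ (Real.sqrt PA * Real.sqrt PB) *
        ((Real.sqrt (L U) * Real.sqrt (FU U)) * (Real.sqrt (L U) * Real.sqrt (HU U))) := by
      intro U
      have h2 : P U * Q U ≤ (Real.sqrt PA * Real.sqrt (FU U)) * (Real.sqrt PB * Real.sqrt (HU U)) :=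
        mul_le_mul (hPU U) (hQU U) (hQ0 U) (mul_nonneg (Real.sqrt_nonneg _) (Real.sqrt_nonneg _))
      calc L U * (P U * Q U) ≤ L U * ((Real.sqrt PA * Real.sqrt (FU U)) *
            (Real.sqrt PB * Real.sqrt (HU U))) := mul_le_mul_of_nonneg_left h2 (hL0 U)
        _ = (Real.sqrt (L U) * Real.sqrt (L U)) * ((Real.sqrt PA * Real.sqrt (FU U)) *
            (Real.sqrt PB * Real.sqrt (HU U))) := by rw [Real.mul_self_sqrt (hL0 U)]
        _ = _ := by ring
    refine (sum_le_sum fun U _ => h1 U).trans ?_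
    rw [← mul_sum]
    refine mul_le_mul_of_nonneg_left ?_ (mul_nonneg (Real.sqrt_nonneg _) (Real.sqrt_nonneg _))
    have h3 := Finset.sum_mul_sq_le_sq_mul_sq (univ : Finset (Finset ι))
      (fun U => Real.sqrt (L U) * Real.sqrt (FU U)) (fun U => Real.sqrt (L U) * Real.sqrt (HU U))
    have h4 : ∑ U : Finset ι, (Real.sqrt (L U) * Real.sqrt (FU U)) ^ 2 = Nf := by
      rw [← hsumF]
      refine sum_congr rfl fun U _ => ?_
      rw [mul_pow, Real.sq_sqrt (hL0 U), Real.sq_sqrt (hFU0 U)]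
    have h5 : ∑ U : Finset ι, (Real.sqrt (L U) * Real.sqrt (HU U)) ^ 2 = Ng := by
      rw [← hsumH]
      refine sum_congr rfl fun U _ => ?_
      rw [mul_pow, Real.sq_sqrt (hL0 U), Real.sq_sqrt (hHU0 U)]
    rw [h4, h5] at h3
    rw [← Real.sqrt_mul hNf0]
    exact Real.le_sqrt_of_sq_le h3
  rw [hfac, htot] at hmain
  refine hmain.trans ?_
  have t1 : |EX μ f| * Q ∅ ≤ |EX μ f| * (Real.sqrt (PB - 1) * Real.sqrt Ng) :=
    mul_le_mul_of_nonneg_left hQe (abs_nonneg _)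
  have t2 : |EX μ g| * P ∅ ≤ |EX μ g| * (Real.sqrt (PA - 1) * Real.sqrt Nf) :=
    mul_le_mul_of_nonneg_left hPe (abs_nonneg _)
  linarith

end Vale.Agent.P042.H455
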