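import Vale.Agent.P042.H455.TiltC

set_option autoImplicit false
set_option linter.unusedSectionVars false
set_option linter.unusedVariables false

/-!
From a kernel `κ` with bilinear norm bound to the centred data `KD`.
-/

namespace Vale.Agent.P042.H455

open Finset

section one

variable {Y : Type*} [Fintype Y] {m : Y → ℝ}

/-- weighted Cauchy-Schwarz on one coordinate -/
lemma cs1 (h0 : ∀ x, 0 ≤ m x) (u v : Y → ℝ) :
    |∑ x, m x * (u x * v x)| ≤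
      Real.sqrt (∑ x, m x * u x ^ 2) * Real.sqrt (∑ x, m x * v x ^ 2) := by
  rw [← Real.sqrt_mul (sum_nonneg fun x _ => mul_nonneg (h0 x) (sq_nonneg _))]
  apply Real.abs_le_sqrt
  have := Finset.sum_mul_sq_le_sq_mul_sq (univ : Finset Y)
    (fun x => Real.sqrt (m x) * u x) (fun x => Real.sqrt (m x) * v x)
  have e1 : ∀ x, Real.sqrt (m x) * u x * (Real.sqrt (m x) * v x) = m x * (u x * v x) := by
    intro x
    have := Real.mul_self_sqrt (h0 x)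
    calc _ = (Real.sqrt (m x) * Real.sqrt (m x)) * (u x * v x) := by ring
      _ = _ := by rw [this]
  have e2 : ∀ (u : Y → ℝ) x, (Real.sqrt (m x) * u x) ^ 2 = m x * u x ^ 2 := by
    intro u x
    rw [mul_pow, Real.sq_sqrt (h0 x)]
  simpa [e1, e2] using this

/-- a bilinear bound gives an operator bound -/
lemma op_of_bil (h0 : ∀ x, 0 ≤ m x) (z : Y → Y → ℝ) {L : ℝ} (hL : 0 ≤ L)
    (hb : ∀ φ ψ : Y → ℝ, |∑ x, ∑ y, m x * m y * (φ x * z x y * ψ y)| ≤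
      L * (Real.sqrt (∑ x, m x * φ x ^ 2) * Real.sqrt (∑ y, m y * ψ y ^ 2)))
    (v : Y → ℝ) :
    ∑ s, m s * (∑ t, m t * (z t s * v t)) ^ 2 ≤ L ^ 2 * ∑ t, m t * v t ^ 2 := by
  set ψ : Y → ℝ := fun s => ∑ t, m t * (z t s * v t) with hψ
  set A : ℝ := ∑ s, m s * ψ s ^ 2 with hA
  have hA0 : 0 ≤ A := sum_nonneg fun x _ => mul_nonneg (h0 x) (sq_nonneg _)
  set B : ℝ := ∑ t, m t * v t ^ 2 with hB
  have hB0 : 0 ≤ B := sum_nonneg fun x _ => mul_nonneg (h0 x) (sq_nonneg _)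
  have h1 : ∑ x, ∑ y, m x * m y * (v x * z x y * ψ y) = A := by
    rw [sum_comm, hA]
    refine sum_congr rfl fun y _ => ?_
    have : m y * ψ y ^ 2 = m y * ψ y * ∑ t, m t * (z t y * v t) := by
      rw [sq, ← mul_assoc]
    rw [this, mul_sum]
    exact sum_congr rfl fun x _ => by ring
  have h2 := hb v ψ
  rw [h1, abs_of_nonneg hA0] at h2
  -- A ≤ L √B √A
  have h3 : Real.sqrt A * Real.sqrt A ≤ (L * Real.sqrt B) * Real.sqrt A := by
    rw [Real.mul_self_sqrt hA0]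
    calc A ≤ L * (Real.sqrt B * Real.sqrt A) := h2
      _ = _ := by ring
  have h4 : Real.sqrt A ≤ L * Real.sqrt B := by
    rcases (Real.sqrt_nonneg A).eq_or_lt with h | h
    · rw [← h]; exact mul_nonneg hL (Real.sqrt_nonneg _)
    · exact le_of_mul_le_mul_right h3 h
  calc A = Real.sqrt A ^ 2 := (Real.sq_sqrt hA0).symm
    _ ≤ (L * Real.sqrt B) ^ 2 := pow_le_pow_left₀ (Real.sqrt_nonneg _) h4 2
    _ = L ^ 2 * B := by rw [mul_pow, Real.sq_sqrt hB0]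

/-- subtracting the mean does not increase the norm -/
lemma norm_sub_mean (h0 : ∀ x, 0 ≤ m x) (h1 : ∑ x, m x = 1) (u : Y → ℝ) :
    ∑ x, m x * (u x - ∑ y, m y * u y) ^ 2 ≤ ∑ x, m x * u x ^ 2 := by
  set c : ℝ := ∑ y, m y * u y with hc
  have : ∑ x, m x * (u x - c) ^ 2 = (∑ x, m x * u x ^ 2) - c ^ 2 := by
    have e : ∀ x, m x * (u x - c) ^ 2 = m x * u x ^ 2 - 2 * c * (m x * u x) + c ^ 2 * m x := by
      intro x; ring
    simp only [e, sum_add_distrib, sum_sub_distrib, ← mul_sum, h1, ← hc]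
    ring
  rw [this]
  have := sq_nonneg c
  linarith

lemma num1 {S P c lam a N : ℝ} (hcl : 1 / 2 ≤ 1 + c) (b1 : |S| ≤ lam * N)
    (b4 : |P| ≤ a ^ 2 * N) (haa : a ^ 2 ≤ lam) (hN : 0 ≤ N) :
    |S / (1 + c) - P / (1 + c) ^ 2| ≤ 12 * lam * N := by
  have hcp : 0 < 1 + c := by linarith
  have i1 : 1 / (1 + c) ≤ 2 := by
    rw [div_le_iff₀ hcp]; linarith
  have i2 : 1 / (1 + c) ^ 2 ≤ 4 := by
    rw [div_le_iff₀ (by positivity)]; nlinarith
  have h1 : |S / (1 + c) - P / (1 + c) ^ 2| ≤ |S / (1 + c)| + |P / (1 + c) ^ 2| := by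
    have := abs_add_le (S / (1 + c)) (-(P / (1 + c) ^ 2))
    rwa [abs_neg, ← sub_eq_add_neg] at this
  have h2 : |S / (1 + c)| = (1 / (1 + c)) * |S| := by
    rw [abs_div, abs_of_pos hcp]; ring
  have h3 : |P / (1 + c) ^ 2| = (1 / (1 + c) ^ 2) * |P| := by
    rw [abs_div, abs_of_pos (by positivity : (0:ℝ) < (1 + c) ^ 2)]; ring
  have h4 : (1 / (1 + c)) * |S| ≤ 2 * (lam * N) := mul_le_mul i1 b1 (abs_nonneg _) (by norm_num)
  have h5 : (1 / (1 + c) ^ 2) * |P| ≤ 4 * (a ^ 2 * N) :=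
    mul_le_mul i2 b4 (abs_nonneg _) (by norm_num)
  have h6 : a ^ 2 * N ≤ lam * N := mul_le_mul_of_nonneg_right haa hN
  have h7 : 0 ≤ lam * N := le_trans (abs_nonneg _) b1
  rw [h2, h3] at h1
  linarith

/-- bilinear bound for the centred kernel -/
lemma bil_centred (h0 : ∀ x, 0 ≤ m x) (h1 : ∑ x, m x = 1) (κ : Y → Y → ℝ) {lam a c : ℝ}
    (hc : c = ∑ x, ∑ y, m x * m y * κ x y) (hc2 : |c| ≤ 1 / 2) (ha : 0 ≤ a) (hal : a ≤ lam)
    (hl1 : lam ≤ 1)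
    (hb : ∀ φ ψ : Y → ℝ, |∑ x, ∑ y, m x * m y * (φ x * κ x y * ψ y)| ≤
      lam * (Real.sqrt (∑ x, m x * φ x ^ 2) * Real.sqrt (∑ y, m y * ψ y ^ 2)))
    (hA : ∑ x, m x * ((∑ y, m y * κ x y) - c) ^ 2 ≤ a ^ 2)
    (hB : ∑ y, m y * ((∑ x, m x * κ x y) - c) ^ 2 ≤ a ^ 2)
    (φ ψ : Y → ℝ) :
    |∑ x, ∑ y, m x * m y * (φ x *
      ((1 + κ x y) / (1 + c) - (1 + ((∑ y, m y * κ x y) - c) / (1 + c)) *
        (1 + ((∑ x, m x * κ x y) - c) / (1 + c))) * ψ y)| ≤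
      (12 * lam) * (Real.sqrt (∑ x, m x * φ x ^ 2) * Real.sqrt (∑ y, m y * ψ y ^ 2)) := by
  have hcl : 1 / 2 ≤ 1 + c := by have := (abs_le.1 hc2).1; linarith
  have hcp : 0 < 1 + c := by linarith
  have hcne : 1 + c ≠ 0 := hcp.ne'
  set α : Y → ℝ := fun x => (∑ y, m y * κ x y) - c with hα
  set β : Y → ℝ := fun y => (∑ x, m x * κ x y) - c with hβ
  set Eφ : ℝ := ∑ x, m x * φ x with hEφ
  set Eψ : ℝ := ∑ x, m x * ψ x with hEψ
  set φ0 : Y → ℝ := fun x => φ x - Eφ with hφ0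
  set ψ0 : Y → ℝ := fun x => ψ x - Eψ with hψ0
  -- the basic sums
  set K : ℝ := ∑ x, ∑ y, m x * m y * (φ x * κ x y * ψ y) with hK
  have hK1 : ∑ x, ∑ y, m x * m y * (φ x * κ x y) = ∑ x, m x * (φ x * (α x + c)) := by
    refine sum_congr rfl fun x _ => ?_
    simp only [hα, sub_add_cancel]
    rw [mul_sum, mul_sum]
    exact sum_congr rfl fun y _ => by ring
  have hK2 : ∑ x, ∑ y, m x * m y * (κ x y * ψ y) = ∑ y, m y * (ψ y * (β y + c)) := by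
    rw [sum_comm]
    refine sum_congr rfl fun y _ => ?_
    simp only [hβ, sub_add_cancel]
    rw [mul_sum, mul_sum]
    exact sum_congr rfl fun x _ => by ring
  set Pα : ℝ := ∑ x, m x * (φ x * α x) with hPα
  set Pβ : ℝ := ∑ y, m y * (ψ y * β y) with hPβ
  have hK1' : ∑ x, ∑ y, m x * m y * (φ x * κ x y) = Pα + c * Eφ := by
    rw [hK1, hPα, hEφ, mul_sum, ← sum_add_distrib]
    exact sum_congr rfl fun x _ => by ring
  have hK2' : ∑ x, ∑ y, m x * m y * (κ x y * ψ y) = Pβ + c * Eψ := by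
    rw [hK2, hPβ, hEψ, mul_sum, ← sum_add_distrib]
    exact sum_congr rfl fun x _ => by ring
  have hmm : ∑ x, ∑ y, m x * m y * (φ x * ψ y) = Eφ * Eψ := by
    rw [hEφ, hEψ, sum_mul_sum]
    exact sum_congr rfl fun x _ => sum_congr rfl fun y _ => by ring
  have hma : ∑ x, ∑ y, m x * m y * (φ x * α x * ψ y) = Pα * Eψ := by
    rw [hPα, hEψ, sum_mul_sum]
    exact sum_congr rfl fun x _ => sum_congr rfl fun y _ => by ring
  have hmb : ∑ x, ∑ y, m x * m y * (φ x * (β y * ψ y)) = Eφ * Pβ := by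
    rw [hPβ, hEφ, sum_mul_sum]
    exact sum_congr rfl fun x _ => sum_congr rfl fun y _ => by ring
  have hmab : ∑ x, ∑ y, m x * m y * (φ x * α x * (β y * ψ y)) = Pα * Pβ := by
    rw [hPβ, hPα, sum_mul_sum]
    exact sum_congr rfl fun x _ => sum_congr rfl fun y _ => by ring
  -- the sum for the centred kernel
  have hZ : ∑ x, ∑ y, m x * m y * (φ x *
      ((1 + κ x y) / (1 + c) - (1 + α x / (1 + c)) * (1 + β y / (1 + c))) * ψ y)
      = (K - c * (Eφ * Eψ) - Pα * Eψ - Eφ * Pβ) / (1 + c) - Pα * Pβ / (1 + c) ^ 2 := by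
    have e : ∀ x y, m x * m y * (φ x *
      ((1 + κ x y) / (1 + c) - (1 + α x / (1 + c)) * (1 + β y / (1 + c))) * ψ y)
      = (1 / (1 + c)) * (m x * m y * (φ x * κ x y * ψ y))
        - (c / (1 + c)) * (m x * m y * (φ x * ψ y))
        - (1 / (1 + c)) * (m x * m y * (φ x * α x * ψ y))
        - (1 / (1 + c)) * (m x * m y * (φ x * (β y * ψ y)))
        - (1 / (1 + c) ^ 2) * (m x * m y * (φ x * α x * (β y * ψ y))) := by
      intro x y
      field_simp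
      ring
    simp only [e, sum_sub_distrib, ← mul_sum]
    rw [hmm, hma, hmb, hmab, ← hK]
    field_simp
  have hK0 : ∑ x, ∑ y, m x * m y * (φ0 x * κ x y * ψ0 y)
      = K - c * (Eφ * Eψ) - Pα * Eψ - Eφ * Pβ := by
    have e : ∀ x y, m x * m y * (φ0 x * κ x y * ψ0 y)
      = m x * m y * (φ x * κ x y * ψ y) - Eψ * (m x * m y * (φ x * κ x y))
        - Eφ * (m x * m y * (κ x y * ψ y)) + (Eφ * Eψ) * (m x * m y * κ x y) := by
      intro x y
      simp only [hφ0, hψ0]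
      ring
    simp only [e, sum_add_distrib, sum_sub_distrib, ← mul_sum]
    rw [hK1', hK2', ← hc, ← hK]
    ring
  have hZ' : (∑ x, ∑ y, m x * m y * (φ x *
      ((1 + κ x y) / (1 + c) - (1 + ((∑ y, m y * κ x y) - c) / (1 + c)) *
        (1 + ((∑ x, m x * κ x y) - c) / (1 + c))) * ψ y)) =
      (∑ x, ∑ y, m x * m y * (φ0 x * κ x y * ψ0 y)) / (1 + c) - Pα * Pβ / (1 + c) ^ 2 := by
    rw [hK0]
    exact hZ
  rw [hZ']
  set Nφ := Real.sqrt (∑ x, m x * φ x ^ 2) with hNφ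
  set Nψ := Real.sqrt (∑ x, m x * ψ x ^ 2) with hNψ
  have hNφ0 : 0 ≤ Nφ := Real.sqrt_nonneg _
  have hNψ0 : 0 ≤ Nψ := Real.sqrt_nonneg _
  have b1 : |∑ x, ∑ y, m x * m y * (φ0 x * κ x y * ψ0 y)| ≤ lam * (Nφ * Nψ) := by
    refine (hb φ0 ψ0).trans (mul_le_mul_of_nonneg_left ?_ (ha.trans hal))
    exact mul_le_mul (Real.sqrt_le_sqrt (norm_sub_mean h0 h1 φ))
      (Real.sqrt_le_sqrt (norm_sub_mean h0 h1 ψ)) (Real.sqrt_nonneg _) hNφ0
  have sqa : Real.sqrt (∑ x, m x * α x ^ 2) ≤ a := by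
    rw [Real.sqrt_le_iff]; exact ⟨ha, hA⟩
  have sqb : Real.sqrt (∑ x, m x * β x ^ 2) ≤ a := by
    rw [Real.sqrt_le_iff]; exact ⟨ha, hB⟩
  have b2 : |Pα| ≤ Nφ * a := (cs1 h0 φ α).trans (mul_le_mul_of_nonneg_left sqa hNφ0)
  have b3 : |Pβ| ≤ Nψ * a := (cs1 h0 ψ β).trans (mul_le_mul_of_nonneg_left sqb hNψ0)
  have b4 : |Pα * Pβ| ≤ a ^ 2 * (Nφ * Nψ) := by
    rw [abs_mul]
    calc |Pα| * |Pβ| ≤ (Nφ * a) * (Nψ * a) :=
          mul_le_mul b2 b3 (abs_nonneg _) (mul_nonneg hNφ0 ha)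
      _ = _ := by ring
  have haa : a ^ 2 ≤ lam := by nlinarith
  exact num1 hcl b1 b4 haa (mul_nonneg hNφ0 hNψ0)

end one

end Vale.Agent.P042.H455
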