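import Vale.Agent.P042.H455.TiltD

set_option autoImplicit false
set_option linter.unusedSectionVars false
set_option linter.unusedVariables false

/-!
Real valued form of the tilt inequality for a kernel `κ`.
-/

namespace Vale.Agent.P042.H455

open Finset

variable {ι : Type*} [Fintype ι] [DecidableEq ι] {X : ι → Type*} [∀ i, Fintype (X i)]
  {μ : ∀ i, X i → ℝ}

/-- normalised row sums -/
noncomputable def tal (μ : ∀ i, X i → ℝ) (κ : ∀ i, X i → X i → ℝ) (c : ι → ℝ) (i : ι) (x : X i) : ℝ :=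
  ((∑ y, μ i y * κ i x y) - c i) / (1 + c i)

/-- normalised column sums -/
noncomputable def tbe (μ : ∀ i, X i → ℝ) (κ : ∀ i, X i → X i → ℝ) (c : ι → ℝ) (i : ι) (y : X i) : ℝ :=
  ((∑ x, μ i x * κ i x y) - c i) / (1 + c i)

/-- the doubly centred kernel -/
noncomputable def tz (μ : ∀ i, X i → ℝ) (κ : ∀ i, X i → X i → ℝ) (c : ι → ℝ) (i : ι) (x y : X i) : ℝ :=
  (1 + κ i x y) / (1 + c i) - (1 + tal μ κ c i x) * (1 + tbe μ κ c i y)

/-- the data satisfy `KD` -/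
lemma PM.kd (hμ : PM μ) {κ : ∀ i, X i → X i → ℝ} {lam a c : ι → ℝ}
    (hc : ∀ i, c i = ∑ x, ∑ y, μ i x * μ i y * κ i x y) (hc2 : ∀ i, |c i| ≤ 1 / 2)
    (hal : ∀ i, 0 ≤ a i ∧ a i ≤ lam i ∧ lam i ≤ 1)
    (hb : ∀ (i : ι) (φ ψ : X i → ℝ), |∑ x, ∑ y, μ i x * μ i y * (φ x * κ i x y * ψ y)| ≤
      lam i * (Real.sqrt (∑ x, μ i x * φ x ^ 2) * Real.sqrt (∑ y, μ i y * ψ y ^ 2)))
    (hA : ∀ i, ∑ x, μ i x * ((∑ y, μ i y * κ i x y) - c i) ^ 2 ≤ a i ^ 2)
    (hB : ∀ i, ∑ y, μ i y * ((∑ x, μ i x * κ i x y) - c i) ^ 2 ≤ a i ^ 2) :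
    KD μ (tz μ κ c) (tal μ κ c) (tbe μ κ c) (fun i => 12 * lam i) (fun i => 2 * a i)
      (fun i => 2 * a i) := by
  have hcl : ∀ i, 1 / 2 ≤ 1 + c i := fun i => by have := (abs_le.1 (hc2 i)).1; linarith
  have hcp : ∀ i, 0 < 1 + c i := fun i => by have := hcl i; linarith
  have ha0 : ∀ i, 0 ≤ a i := fun i => (hal i).1
  have hl0 : ∀ i, 0 ≤ lam i := fun i => (hal i).1.trans (hal i).2.1
  have hrow : ∀ i, ∑ x, μ i x * (∑ y, μ i y * κ i x y) = c i := by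
    intro i
    rw [hc i]
    refine sum_congr rfl fun x _ => ?_
    rw [mul_sum]
    exact sum_congr rfl fun y _ => by ring
  have hcol : ∀ i, ∑ y, μ i y * (∑ x, μ i x * κ i x y) = c i := by
    intro i
    rw [hc i, sum_comm]
    refine sum_congr rfl fun x _ => ?_
    rw [mul_sum]
    exact sum_congr rfl fun y _ => by ring
  have halc : ∀ i, ∑ t, μ i t * tal μ κ c i t = 0 := by
    intro i
    have e : ∀ t, μ i t * tal μ κ c i t =
        (μ i t * (∑ y, μ i y * κ i t y) - c i * μ i t) / (1 + c i) := by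
      intro t; unfold tal; ring
    simp only [e]
    rw [← sum_div, sum_sub_distrib, hrow, ← mul_sum, hμ.one]
    simp
  have hbec : ∀ i, ∑ t, μ i t * tbe μ κ c i t = 0 := by
    intro i
    have e : ∀ t, μ i t * tbe μ κ c i t =
        (μ i t * (∑ y, μ i y * κ i y t) - c i * μ i t) / (1 + c i) := by
      intro t; unfold tbe; ring
    simp only [e]
    rw [← sum_div, sum_sub_distrib, hcol, ← mul_sum, hμ.one]
    simp
  have hsq : ∀ i (u : X i → ℝ), ∑ t, μ i t * u t ^ 2 ≤ a i ^ 2 →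
      ∑ t, μ i t * (u t / (1 + c i)) ^ 2 ≤ (2 * a i) ^ 2 := by
    intro i u hu
    have e : ∀ t, μ i t * (u t / (1 + c i)) ^ 2 = (1 / (1 + c i) ^ 2) * (μ i t * u t ^ 2) := by
      intro t; rw [div_pow]; ring
    simp only [e]
    rw [← mul_sum]
    have i2 : 1 / (1 + c i) ^ 2 ≤ 4 := by
      have h1 := hcp i
      rw [div_le_iff₀ (by positivity)]; nlinarith [hcl i]
    calc (1 / (1 + c i) ^ 2) * ∑ t, μ i t * u t ^ 2 ≤ 4 * a i ^ 2 :=
          mul_le_mul i2 hu (sum_nonneg fun t _ => mul_nonneg (hμ.nn _ _) (sq_nonneg _))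
            (by norm_num)
      _ = _ := by ring
  refine ⟨fun i => mul_nonneg (by norm_num) (hl0 i), fun i => mul_nonneg (by norm_num) (ha0 i),
    fun i => mul_nonneg (by norm_num) (ha0 i), ?_, ?_, halc, hbec, ?_, ?_, ?_⟩
  · intro i y
    have hne := (hcp i).ne'
    have e : ∀ t, μ i t * tz μ κ c i t y = (μ i t + μ i t * κ i t y) / (1 + c i) -
        (μ i t + μ i t * tal μ κ c i t) * (1 + tbe μ κ c i y) := by
      intro t; unfold tz; ring
    simp only [e]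
    rw [sum_sub_distrib, ← sum_div, ← sum_mul, sum_add_distrib, sum_add_distrib, halc, hμ.one]
    unfold tbe
    field_simp
    ring
  · intro i x
    have hne := (hcp i).ne'
    have e : ∀ t, μ i t * tz μ κ c i x t = (μ i t + μ i t * κ i x t) / (1 + c i) -
        (1 + tal μ κ c i x) * (μ i t + μ i t * tbe μ κ c i t) := by
      intro t; unfold tz; ring
    simp only [e]
    rw [sum_sub_distrib, ← sum_div, ← mul_sum, sum_add_distrib, sum_add_distrib, hbec, hμ.one]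
    unfold tal
    field_simp
    ring
  · intro i
    exact hsq i _ (hA i)
  · intro i
    exact hsq i _ (hB i)
  · intro i v
    exact op_of_bil (hμ.nn i) (tz μ κ c i) (mul_nonneg (by norm_num) (hl0 i))
      (fun φ ψ => bil_centred (hμ.nn i) (hμ.one i) (κ i) (hc i) (hc2 i) (hal i).1 (hal i).2.1
        (hal i).2.2 (hb i) (hA i) (hB i) φ ψ) v

/-- the form with kernel `∏ (1 + κ)` -/
def RF (μ : ∀ i, X i → ℝ) (κ : ∀ i, X i → X i → ℝ) (f g : (∀ i, X i) → ℝ) : ℝ :=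
  EX μ (fun x => EX μ (fun y => f x * g y * ∏ i, (1 + κ i (x i) (y i))))

lemma RF_eq (κ : ∀ i, X i → X i → ℝ) (c : ι → ℝ) (hc : ∀ i, 1 + c i ≠ 0)
    (f g : (∀ i, X i) → ℝ) :
    RF μ κ f g = (∏ i, (1 + c i)) * BM μ (tz μ κ c) (tal μ κ c) (tbe μ κ c) f g := by
  unfold RF BM
  rw [← EX_smul]
  congr 1
  funext x
  rw [← EX_smul]
  congr 1
  funext y
  have : ∏ i, (1 + κ i (x i) (y i)) = (∏ i, (1 + c i)) *
      ∏ i, (tz μ κ c i (x i) (y i) + (1 + tal μ κ c i (x i)) * (1 + tbe μ κ c i (y i))) := by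
    rw [← prod_mul_distrib]
    refine prod_congr rfl fun i _ => ?_
    unfold tz
    have := hc i
    field_simp
    ring
  rw [this]
  ring

lemma prod_bound (a σ : ι → ℝ) {δ0 : ℝ} (hs : ∀ i, 0 < σ i)
    (hd : ∑ i, 4 * a i ^ 2 / σ i ≤ δ0) (hd1 : δ0 ≤ 1) :
    ∏ i, (1 + (2 * a i) ^ 2 / σ i) - 1 ≤ 2 * δ0 := by
  have h0 : 0 ≤ ∑ i, 4 * a i ^ 2 / σ i :=
    sum_nonneg fun i _ => div_nonneg (by positivity) (hs i).le
  have hd0 : 0 ≤ δ0 := h0.trans hd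
  have h1 : ∏ i, (1 + (2 * a i) ^ 2 / σ i) ≤ Real.exp δ0 := by
    calc ∏ i, (1 + (2 * a i) ^ 2 / σ i) ≤ ∏ i, Real.exp (4 * a i ^ 2 / σ i) := by
          refine prod_le_prod (fun i _ => ?_) fun i _ => ?_
          · have := div_nonneg (sq_nonneg (2 * a i)) (hs i).le
            linarith
          · have := Real.add_one_le_exp (4 * a i ^ 2 / σ i)
            have e : (2 * a i) ^ 2 / σ i = 4 * a i ^ 2 / σ i := by ring
            rw [e]; linarith
      _ = Real.exp (∑ i, 4 * a i ^ 2 / σ i) := (Real.exp_sum _ _).symm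
      _ ≤ _ := Real.exp_le_exp.2 hd
  have h2 := Real.abs_exp_sub_one_sub_id_le (x := δ0) (by rw [abs_of_nonneg hd0]; exact hd1)
  have h3 := (abs_le.1 h2).2
  nlinarith

/-- real valued tilt inequality -/
theorem PM.real_tilt (hμ : PM μ) {κ : ∀ i, X i → X i → ℝ} {lam a σ c : ι → ℝ} {δ0 : ℝ}
    (hc : ∀ i, c i = ∑ x, ∑ y, μ i x * μ i y * κ i x y) (hc2 : ∀ i, |c i| ≤ 1 / 2)
    (hal : ∀ i, 0 ≤ a i ∧ a i ≤ lam i ∧ lam i ≤ 1)
    (hb : ∀ (i : ι) (φ ψ : X i → ℝ), |∑ x, ∑ y, μ i x * μ i y * (φ x * κ i x y * ψ y)| ≤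
      lam i * (Real.sqrt (∑ x, μ i x * φ x ^ 2) * Real.sqrt (∑ y, μ i y * ψ y ^ 2)))
    (hA : ∀ i, ∑ x, μ i x * ((∑ y, μ i y * κ i x y) - c i) ^ 2 ≤ a i ^ 2)
    (hB : ∀ i, ∑ y, μ i y * ((∑ x, μ i x * κ i x y) - c i) ^ 2 ≤ a i ^ 2)
    (hs : ∀ i, 0 < σ i) (hd : ∑ i, 4 * a i ^ 2 / σ i ≤ δ0) (hd1 : δ0 ≤ 1)
    (f g : (∀ i, X i) → ℝ) :
    |RF μ κ f g - (∏ i, (1 + c i)) * (EX μ f * EX μ g)| ≤ (∏ i, (1 + c i)) *
      (|EX μ f| * (2 * Real.sqrt δ0 * Real.sqrt (EN μ (fun i => 12 * lam i + σ i) g)) +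
       |EX μ g| * (2 * Real.sqrt δ0 * Real.sqrt (EN μ (fun i => 12 * lam i + σ i) f)) +
       4 * (Real.sqrt (EN μ (fun i => 12 * lam i + σ i) f) *
          Real.sqrt (EN μ (fun i => 12 * lam i + σ i) g))) := by
  have hK := hμ.kd hc hc2 hal hb hA hB
  have hcl : ∀ i, 1 / 2 ≤ 1 + c i := fun i => by have := (abs_le.1 (hc2 i)).1; linarith
  have hcp : ∀ i, 0 < 1 + c i := fun i => by have := hcl i; linarith
  have hP : 0 < ∏ i, (1 + c i) := prod_pos fun i _ => hcp i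
  have h0 : 0 ≤ ∑ i, 4 * a i ^ 2 / σ i :=
    sum_nonneg fun i _ => div_nonneg (by positivity) (hs i).le
  have hd0 : 0 ≤ δ0 := h0.trans hd
  have hm := hμ.tilt_main hK σ hs f g
  rw [RF_eq κ c (fun i => (hcp i).ne')]
  rw [← mul_sub, abs_mul, abs_of_pos hP]
  refine mul_le_mul_of_nonneg_left ?_ hP.le
  refine hm.trans ?_
  set Nf := EN μ (fun i => 12 * lam i + σ i) f with hNf
  set Ng := EN μ (fun i => 12 * lam i + σ i) g with hNg
  set PA := ∏ i, (1 + (2 * a i) ^ 2 / σ i) with hPA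
  have hPA1 : PA - 1 ≤ 2 * δ0 := prod_bound a σ hs hd hd1
  have s1 : Real.sqrt (PA - 1) ≤ 2 * Real.sqrt δ0 := by
    rw [Real.sqrt_le_iff]
    refine ⟨by positivity, ?_⟩
    rw [mul_pow, Real.sq_sqrt hd0]
    linarith
  have s2 : Real.sqrt PA * Real.sqrt PA ≤ 4 := by
    have : 0 ≤ PA := prod_nonneg fun i _ => by
      have := div_nonneg (sq_nonneg (2 * a i)) (hs i).le
      linarith
    rw [Real.mul_self_sqrt this]
    linarith
  have n1 : |EX μ f| * (Real.sqrt (PA - 1) * Real.sqrt Ng) ≤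
      |EX μ f| * (2 * Real.sqrt δ0 * Real.sqrt Ng) :=
    mul_le_mul_of_nonneg_left (mul_le_mul_of_nonneg_right s1 (Real.sqrt_nonneg _)) (abs_nonneg _)
  have n2 : |EX μ g| * (Real.sqrt (PA - 1) * Real.sqrt Nf) ≤
      |EX μ g| * (2 * Real.sqrt δ0 * Real.sqrt Nf) :=
    mul_le_mul_of_nonneg_left (mul_le_mul_of_nonneg_right s1 (Real.sqrt_nonneg _)) (abs_nonneg _)
  have n3 : Real.sqrt PA * Real.sqrt PA * (Real.sqrt Nf * Real.sqrt Ng) ≤
      4 * (Real.sqrt Nf * Real.sqrt Ng) :=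
    mul_le_mul_of_nonneg_right s2 (mul_nonneg (Real.sqrt_nonneg _) (Real.sqrt_nonneg _))
  linarith

end Vale.Agent.P042.H455
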